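import Vale.Agent.P006.LS

noncomputable section
open Complex
open scoped Classical ComplexConjugate

namespace Vale.Agent.P006
open Vale.Agent.P026

namespace BK2M

theorem nq_le (hB : Bas) (K A : ℝ) (hK : 0 ≤ K) (T : Finset O) (a : O → ℂ) (hT : PT K T)
    (ha : ∀ n, ‖a n‖ ≤ A) : nq T a ≤ 16 * K * A ^ 2 := by
  have hc : (T.card : ℝ) ≤ 16 * K :=
    hB.b3.card_le K T hK fun n hn => ⟨hB.b2.ne n (hT n hn).1, (hT n hn).2⟩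
  calc nq T a ≤ ∑ _n ∈ T, A ^ 2 :=
        Finset.sum_le_sum fun n _ => pow_le_pow_left₀ (norm_nonneg _) (ha n) 2
    _ = T.card * A ^ 2 := by rw [Finset.sum_const, nsmul_eq_mul]
    _ ≤ _ := mul_le_mul_of_nonneg_right hc (sq_nonneg _)

theorem QT.pt {K : ℝ} {T : Finset O} (h : QT K T) : PT K T := fun n hn => ⟨(h n hn).1.1, (h n hn).2.2⟩

theorem rp (Y : ℝ) (hY : 0 ≤ Y) (n : ℕ) (e : ℝ) : (Y ^ n) ^ e = Y ^ ((n : ℝ) * e) := by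
  rw [← Real.rpow_natCast, ← Real.rpow_mul hY]

theorem rp' (Y : ℝ) (hY : 0 ≤ Y) (n : ℕ) (e : ℝ) : (Y ^ e) ^ n = Y ^ (e * (n : ℝ)) := by
  rw [← Real.rpow_natCast, ← Real.rpow_mul hY]

theorem small (hB : Bas) (hD : DECStmt3) (hH : HBAStmt) : ∃ C : ℝ, 0 ≤ C ∧ ∀ (i j : ℕ)
    (S : Finset (O × O)) (T : Finset O) (a : O → ℂ) (Y : ℝ), Blk i j S → 1 ≤ Y →
    (2 : ℝ) ^ (i + 2 * j) ≤ Y ^ 2 → QT Y T → (∀ n, ‖a n‖ ≤ 1) →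
    ∑ x ∈ S, ‖cp T a (x.1 * x.2 ^ 2)‖ ^ 2 ≤ C * Y ^ (3001 / 1000 : ℝ) := by
  obtain ⟨C, hC, hH⟩ := hH (1 / 3000) (by norm_num)
  refine ⟨C * 8 * 24 * 16, by positivity, fun i j S T a Y hS hY hij hT ha => ?_⟩
  have hY0 : 0 < Y := by linarith
  have hY2 : 1 ≤ Y ^ 2 := one_le_pow₀ hY
  have hinj : Set.InjOn (fun x : O × O => x.1 * x.2 ^ 2) S := fun x hx y hy e =>
    hD.2.2.2 x y (hS x hx).1 (hS x hx).2.1 (hS x hx).2.2.1 (hS y hy).1 (hS y hy).2.1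
      (hS y hy).2.2.1 e
  have h := hH (8 * Y ^ 2) Y T.card (by linarith) hY (S.image fun x => x.1 * x.2 ^ 2) T a
    (fun m hm => by
      obtain ⟨x, hx, rfl⟩ := Finset.mem_image.1 hm
      refine ⟨trivial, ?_⟩
      obtain ⟨-, -, -, -, h5, -, h7⟩ := hS x hx
      rw [hB.b1.N_mul, hB.b1.N_pow]
      have n1 : 0 ≤ N x.1 := Nat.cast_nonneg _
      have n2 : 0 ≤ N x.2 := Nat.cast_nonneg _
      calc N x.1 * N x.2 ^ 2 ≤ 2 ^ (i + 1) * (2 ^ (j + 1)) ^ 2 := by gcongr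
        _ = 8 * 2 ^ (i + 2 * j) := by ring
        _ ≤ _ := by gcongr) hT le_rfl
  rw [Finset.sum_image hinj] at h
  refine h.trans ?_
  have hn : nq T a ≤ 16 * Y * 1 ^ 2 := nq_le hB Y 1 hY0.le T a (QT.pt hT) ha
  have h8 : ∀ e : ℝ, e ≤ 1 → (8 : ℝ) ^ e ≤ 8 := fun e he => by
    calc (8 : ℝ) ^ e ≤ 8 ^ (1 : ℝ) := Real.rpow_le_rpow_of_exponent_le (by norm_num) he
      _ = 8 := Real.rpow_one 8
  have e3 : 8 * Y ^ 2 * Y = 8 * Y ^ 3 := by ring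
  have a1 : (8 * Y ^ 2 * Y) ^ (1 / 3000 : ℝ) ≤ 8 * Y ^ (1 / 1000 : ℝ) := by
    rw [e3, Real.mul_rpow (by norm_num) (by positivity), rp Y hY0.le]
    refine mul_le_mul (h8 _ (by norm_num)) (le_of_eq ?_) (by positivity) (by norm_num)
    congr 1
    norm_num
  have a2 : (8 * Y ^ 2 * Y) ^ (2 / 3 : ℝ) ≤ 8 * Y ^ 2 := by
    rw [e3, Real.mul_rpow (by norm_num) (by positivity), rp Y hY0.le]
    refine mul_le_mul (h8 _ (by norm_num)) (le_of_eq ?_) (by positivity) (by norm_num)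
    rw [← Real.rpow_natCast]
    congr 1
    norm_num
  have a3 : (8 * Y ^ 2) ^ (1 / 3 : ℝ) * Y ≤ 8 * Y ^ 2 := by
    have : (8 * Y ^ 2) ^ (1 / 3 : ℝ) ≤ 8 * Y := by
      rw [Real.mul_rpow (by norm_num) (by positivity), rp Y hY0.le]
      refine mul_le_mul (h8 _ (by norm_num)) ?_ (by positivity) (by norm_num)
      calc Y ^ (((2 : ℕ) : ℝ) * (1 / 3)) ≤ Y ^ (1 : ℝ) :=
            Real.rpow_le_rpow_of_exponent_le hY (by norm_num)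
        _ = Y := Real.rpow_one Y
    calc (8 * Y ^ 2) ^ (1 / 3 : ℝ) * Y ≤ 8 * Y * Y := by gcongr
      _ = _ := by ring
  have a4 : Y ^ (3001 / 1000 : ℝ) = Y ^ (1 / 1000 : ℝ) * Y ^ 3 := by
    rw [← Real.rpow_natCast, ← Real.rpow_add hY0]
    congr 1
    norm_num
  have hn0 : 0 ≤ nq T a := Finset.sum_nonneg fun _ _ => sq_nonneg _
  show _ * nq T a ≤ _
  calc C * (8 * Y ^ 2 * Y) ^ (1 / 3000 : ℝ) * (8 * Y ^ 2 + (8 * Y ^ 2 * Y) ^ (2 / 3 : ℝ) +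
        (8 * Y ^ 2) ^ (1 / 3 : ℝ) * Y) * nq T a
      ≤ C * (8 * Y ^ (1 / 1000 : ℝ)) * (8 * Y ^ 2 + 8 * Y ^ 2 + 8 * Y ^ 2) * (16 * Y * 1 ^ 2) := by
        gcongr
    _ = _ := by rw [a4]; ring

theorem fourth (hB : Bas) (hL : CLSStmt) (hV : CONVStmt) : ∃ C : ℝ, 0 ≤ C ∧ ∀ (i j : ℕ)
    (S : Finset (O × O)) (T1 T2 : Finset O) (a1 a2 : O → ℂ) (Y : ℝ), Blk i j S → 1 ≤ Y →
    (2 : ℝ) ^ (i + 2 * j) ≤ Y ^ 2 → QT Y T1 → QT Y T2 → (∀ n, ‖a1 n‖ ≤ 1) → (∀ n, ‖a2 n‖ ≤ 1) →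
    ∑ x ∈ S, (‖cp T1 a1 (x.1 * x.2 ^ 2) * cp T2 a2 (x.1 * x.2 ^ 2)‖ ^ 2) ^ 2 ≤
      C * Y ^ (8008 / 1000 : ℝ) := by
  obtain ⟨C, hC, hL⟩ := hL
  obtain ⟨V, hV1, hV⟩ := hV (1 / 2000) (by norm_num)
  have hV0 : 0 ≤ V := by linarith
  refine ⟨C * 17 * 16 * V ^ 6, by positivity, fun i j S T1 T2 a1 a2 Y hS hY hij h1 h2 ha1 ha2 => ?_⟩
  have hY0 : 0 < Y := by linarith
  have hYY : 1 ≤ Y * Y := one_le_mul_of_one_le_of_one_le hY hY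
  obtain ⟨T, c, hT, hc, hp⟩ := hV T1 T2 a1 a2 Y Y 1 1 hY hY zero_le_one zero_le_one (QT.pt h1)
    (QT.pt h2) ha1 ha2
  obtain ⟨T', c', hT', hc', hp'⟩ := hV T T c c (Y * Y) (Y * Y) _ _ hYY hYY (by positivity)
    (by positivity) hT hT hc hc
  have e1 : ∀ x : O × O, (‖cp T1 a1 (x.1 * x.2 ^ 2) * cp T2 a2 (x.1 * x.2 ^ 2)‖ ^ 2) ^ 2 =
      ‖cp T' c' (x.1 * x.2 ^ 2)‖ ^ 2 := fun x => by
    rw [hp', hp, norm_mul (cp T1 a1 _ * cp T2 a2 _)]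
    ring
  simp only [e1]
  have h := hL S T' c' (Y * Y * (Y * Y)) (4 * Y ^ 2) (one_le_mul_of_one_le_of_one_le hYY hYY)
    (by nlinarith) (fun x hx => by
      obtain ⟨g1, g2, g3, -, g5, -, g7⟩ := hS x hx
      refine ⟨g1.1, g2.1, g3, ?_⟩
      rw [hB.b1.N_mul]
      have n2 : 0 ≤ N x.2 := Nat.cast_nonneg _
      have : (2 : ℝ) ^ (i + j) ≤ 2 ^ (i + 2 * j) := pow_le_pow_right₀ (by norm_num) (by omega)
      calc N x.1 * N x.2 ≤ 2 ^ (i + 1) * 2 ^ (j + 1) := mul_le_mul g5.le g7.le n2 (by positivity)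
        _ = 4 * 2 ^ (i + j) := by ring
        _ ≤ _ := by linarith) hT'
  refine h.trans ?_
  have hn := nq_le hB _ _ (by positivity) T' c' hT' hc'
  have a1 : (Y * Y) ^ (1 / 2000 : ℝ) = (Y ^ (1 / 1000 : ℝ)) := by
    rw [← pow_two, rp Y hY0.le]
    congr 1
    norm_num
  have a2 : (Y * Y * (Y * Y)) ^ (1 / 2000 : ℝ) = (Y ^ (1 / 1000 : ℝ)) ^ 2 := by
    rw [Real.mul_rpow (by positivity) (by positivity), a1, pow_two]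
  have a3 : Y ^ (8008 / 1000 : ℝ) = (Y ^ (1 / 1000 : ℝ)) ^ 8 * Y ^ 8 := by
    rw [rp' Y hY0.le, ← Real.rpow_natCast, ← Real.rpow_add hY0]
    congr 1
    norm_num
  rw [a1, a2] at hn
  rw [a3]
  generalize Y ^ (1 / 1000 : ℝ) = y at *
  calc C * (Y * Y * (Y * Y) + (4 * Y ^ 2) ^ 2) * nq T' c'
      ≤ C * (Y * Y * (Y * Y) + (4 * Y ^ 2) ^ 2) *
        (16 * (Y * Y * (Y * Y)) * (V * y ^ 2 * (V * y * 1 * 1) * (V * y * 1 * 1)) ^ 2) := by gcongr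
    _ = _ := by ring

end BK2M

open BK2M in
theorem bk2S (hB : Bas) (hD : DECStmt3) (hH : HBAStmt) (hL : CLSStmt) (hV : CONVStmt)
    (hc : CNTStmt) : BK2Stmt := by
  obtain ⟨C1, hC1, h1⟩ := small hB hD hH
  obtain ⟨C2, hC2, h2⟩ := fourth hB hL hV
  obtain ⟨C3, hC3, h3⟩ := hc
  refine ⟨C1 + (C2 + C3), by positivity, fun i j S T1 T2 a1 a2 Y hS hY hij hT1 hT2 ha1 ha2 => ?_⟩
  have hY0 : 0 < Y := by linarith
  have sub : ∀ (p : O × O → Prop) [DecidablePred p], Blk i j (S.filter p) :=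
    fun p _ x hx => hS x (Finset.mem_filter.1 hx).1
  rw [← Finset.sum_filter_add_sum_filter_not S
    (fun x => Y ^ (33 / 40 : ℝ) ≤ ‖cp T1 a1 (x.1 * x.2 ^ 2)‖), add_comm, add_mul]
  refine add_le_add ?_ ?_
  · have g := h1 i j _ T2 a2 Y (sub fun x => ¬ Y ^ (33 / 40 : ℝ) ≤ ‖cp T1 a1 (x.1 * x.2 ^ 2)‖) hY hij
      hT2 ha2
    have e : Y ^ (4651 / 1000 : ℝ) = (Y ^ (33 / 40 : ℝ)) ^ 2 * Y ^ (3001 / 1000 : ℝ) := by
      rw [rp' Y hY0.le, ← Real.rpow_add hY0]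
      congr 1
      norm_num
    calc _ ≤ ∑ x ∈ S.filter (fun x => ¬ Y ^ (33 / 40 : ℝ) ≤ ‖cp T1 a1 (x.1 * x.2 ^ 2)‖),
          (Y ^ (33 / 40 : ℝ)) ^ 2 * ‖cp T2 a2 (x.1 * x.2 ^ 2)‖ ^ 2 := by
          refine Finset.sum_le_sum fun x hx => ?_
          have := (not_le.1 (Finset.mem_filter.1 hx).2).le
          rw [norm_mul, mul_pow]
          gcongr
      _ = (Y ^ (33 / 40 : ℝ)) ^ 2 * _ := by rw [← Finset.mul_sum]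
      _ ≤ (Y ^ (33 / 40 : ℝ)) ^ 2 * (C1 * Y ^ (3001 / 1000 : ℝ)) :=
          mul_le_mul_of_nonneg_left g (by positivity)
      _ = _ := by rw [e]; ring
  · have g2 := h2 i j _ T1 T2 a1 a2 Y (sub fun x => Y ^ (33 / 40 : ℝ) ≤ ‖cp T1 a1 (x.1 * x.2 ^ 2)‖)
      hY hij hT1 hT2 ha1 ha2
    have g3 := h3 i j _ T1 a1 Y (sub fun x => Y ^ (33 / 40 : ℝ) ≤ ‖cp T1 a1 (x.1 * x.2 ^ 2)‖) hY hij
      hT1 ha1 (fun x hx => (Finset.mem_filter.1 hx).2)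
    have cs := sq_sum_le_card_mul_sum_sq
      (s := S.filter (fun x => Y ^ (33 / 40 : ℝ) ≤ ‖cp T1 a1 (x.1 * x.2 ^ 2)‖))
      (f := fun x => ‖cp T1 a1 (x.1 * x.2 ^ 2) * cp T2 a2 (x.1 * x.2 ^ 2)‖ ^ 2)
    have e : Y ^ (129 / 100 : ℝ) * Y ^ (8008 / 1000 : ℝ) ≤ (Y ^ (4651 / 1000 : ℝ)) ^ 2 := by
      rw [rp' Y hY0.le, ← Real.rpow_add hY0]
      exact Real.rpow_le_rpow_of_exponent_le hY (by norm_num)
    refine le_of_pow_le_pow_left₀ (n := 2) (by norm_num) (by positivity) (cs.trans ?_)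
    have e2 : C3 * C2 ≤ (C2 + C3) ^ 2 := by nlinarith [mul_nonneg hC2 hC3]
    calc _ ≤ (C3 * Y ^ (129 / 100 : ℝ)) * (C2 * Y ^ (8008 / 1000 : ℝ)) :=
          mul_le_mul g3 g2 (Finset.sum_nonneg fun _ _ => sq_nonneg _) (by positivity)
      _ = (C3 * C2) * (Y ^ (129 / 100 : ℝ) * Y ^ (8008 / 1000 : ℝ)) := by ring
      _ ≤ (C2 + C3) ^ 2 * (Y ^ (4651 / 1000 : ℝ)) ^ 2 := by gcongr
      _ = _ := by ring

end Vale.Agent.P006
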