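import Vale.Agent.P006.LS

/-! P006 branch B: summation over dyadic blocks. -/

noncomputable section
open Complex
open scoped Classical ComplexConjugate

namespace Vale.Agent.P006
open Vale.Agent.P026

namespace BLKM

theorem logb (ε : ℝ) (hε : 0 < ε) : ∃ C : ℝ, 0 ≤ C ∧ ∀ (H : ℝ) (L : ℕ), 1 ≤ H → (2 : ℝ) ^ L ≤ H →
    ((L : ℝ) + 1) ^ 2 ≤ C * H ^ ε := by
  have hl : 0 < Real.log 2 := Real.log_pos (by norm_num)
  refine ⟨(1 + 2 / (ε * Real.log 2)) ^ 2, by positivity, fun H L hH hL => ?_⟩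
  have h0 : 0 ≤ H := by linarith
  have h1 : (L : ℝ) * Real.log 2 ≤ Real.log H := by
    rw [← Real.log_pow]; exact Real.log_le_log (by positivity) hL
  have h2 : Real.log H ≤ H ^ (ε / 2) / (ε / 2) := Real.log_le_rpow_div h0 (by positivity)
  have h3 : 1 ≤ H ^ (ε / 2) := Real.one_le_rpow hH (by positivity)
  have h4 : (L : ℝ) ≤ 2 / (ε * Real.log 2) * H ^ (ε / 2) := by
    have : (L : ℝ) ≤ H ^ (ε / 2) / (ε / 2) / Real.log 2 := by
      rw [le_div_iff₀ hl]; linarith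
    refine this.trans (le_of_eq ?_)
    field_simp
  have h5 : (L : ℝ) + 1 ≤ (1 + 2 / (ε * Real.log 2)) * H ^ (ε / 2) := by linarith
  have h6 : H ^ ε = (H ^ (ε / 2)) ^ 2 := by
    rw [← Real.rpow_natCast, ← Real.rpow_mul h0]; congr 1; push_cast; ring
  rw [h6, ← mul_pow]
  exact pow_le_pow_left₀ (by positivity) h5 2

theorem blk_log (hB : Bas) (a : O) (ha : a ≠ 0) :
    (2 : ℝ) ^ Nat.log 2 (Nn a) ≤ N a ∧ N a < 2 ^ (Nat.log 2 (Nn a) + 1) := by
  have h1 : 1 ≤ N a := hB.b1.N_one_le a ha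
  have h2 : Nn a ≠ 0 := by
    intro h; unfold N at h1; rw [h] at h1; norm_num at h1
  unfold N
  constructor
  · exact_mod_cast Nat.pow_log_le_self 2 h2
  · exact_mod_cast Nat.lt_pow_succ_log_self (by norm_num) (Nn a)

/-- one block -/
theorem inner (hB : Bas) (G : O → ℝ) (H D : ℝ) (S : Finset O) (hH : 1 ≤ H) (hD : 0 ≤ D)
    (u : O) (hu : u ≠ 0) (i j : ℕ) (f1 f2 f3 : O → O)
    (hS : ∀ h ∈ S, N h ≤ H ∧ OP (f1 h) ∧ OP (f2 h) ∧ Squarefree (f1 h * f2 h) ∧ f3 h ≠ 0 ∧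
      h = u * (f1 h * f2 h ^ 2) * f3 h ^ 3 ∧ Nat.log 2 (Nn (f1 h)) = i ∧ Nat.log 2 (Nn (f2 h)) = j)
    (hb : ∀ h3 : O, h3 ≠ 0 → ∀ T : Finset (O × O), Blk i j T → (2 : ℝ) ^ (i + 2 * j) ≤ H →
      ∑ x ∈ T, G (u * (x.1 * x.2 ^ 2) * h3 ^ 3) ≤
        D * ((2 : ℝ) ^ (i + 2 * j) / H) ^ (1 / 3 : ℝ)) :
    ∑ h ∈ S, G h ≤ 16 * D := by
  rcases S.eq_empty_or_nonempty with rfl | ⟨h0, hh0⟩
  · simp only [Finset.sum_empty]; positivity
  set La : ℝ := (2 : ℝ) ^ (i + 2 * j) with hLa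
  have hLa0 : 0 < La := by positivity
  have key : ∀ h ∈ S, La * N (f3 h) ^ 3 ≤ H := by
    intro h hh
    obtain ⟨e1, e2, e3, -, e5, e6, e7, e8⟩ := hS h hh
    have a1 := (blk_log hB _ (hB.b2.ne _ e2.1)).1
    have a2 := (blk_log hB _ (hB.b2.ne _ e3.1)).1
    rw [e7] at a1; rw [e8] at a2
    have a3 := hB.b1.N_one_le u hu
    have a4 := hB.b1.N_one_le _ e5
    have a5 : N h = N u * (N (f1 h) * N (f2 h) ^ 2) * N (f3 h) ^ 3 := by
      conv_lhs => rw [e6]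
      rw [hB.b1.N_mul, hB.b1.N_mul, hB.b1.N_mul, hB.b1.N_pow, hB.b1.N_pow]
    have a6 : La ≤ N (f1 h) * N (f2 h) ^ 2 := by
      rw [hLa, pow_add, mul_comm 2 j, pow_mul]
      exact mul_le_mul a1 (pow_le_pow_left₀ (by positivity) a2 2) (by positivity)
        (le_trans (by positivity) a1)
    have a7 : N (f1 h) * N (f2 h) ^ 2 ≤ N u * (N (f1 h) * N (f2 h) ^ 2) :=
      le_mul_of_one_le_left (hLa0.le.trans a6) a3
    calc La * N (f3 h) ^ 3 ≤ N u * (N (f1 h) * N (f2 h) ^ 2) * N (f3 h) ^ 3 :=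
          mul_le_mul_of_nonneg_right (a6.trans a7) (by positivity)
      _ = N h := a5.symm
      _ ≤ H := e1
  have hLH : La ≤ H := by
    have a4 := hB.b1.N_one_le _ (hS h0 hh0).2.2.2.2.1
    have := key h0 hh0
    have a5 : 1 ≤ N (f3 h0) ^ 3 := one_le_pow₀ a4
    nlinarith
  have hcard : ((S.image f3).card : ℝ) ≤ 16 * (H / La) ^ (1 / 3 : ℝ) := by
    refine hB.b3.card_le _ _ (by positivity) fun c hc => ?_
    obtain ⟨h, hh, rfl⟩ := Finset.mem_image.1 hc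
    refine ⟨(hS h hh).2.2.2.2.1, ?_⟩
    have a1 : N (f3 h) ^ 3 ≤ H / La := by
      rw [le_div_iff₀ hLa0]; have := key h hh; linarith
    have a0 : 0 ≤ N (f3 h) := by unfold N; positivity
    calc N (f3 h) = (N (f3 h) ^ 3) ^ (1 / 3 : ℝ) := by
          rw [← Real.rpow_natCast, ← Real.rpow_mul a0]; norm_num
      _ ≤ _ := Real.rpow_le_rpow (by positivity) a1 (by norm_num)
  rw [← Finset.sum_fiberwise_of_maps_to (s := S) (t := S.image f3) (g := f3)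
    (fun h hh => Finset.mem_image_of_mem _ hh)]
  have hfib : ∀ c ∈ S.image f3, ∑ h ∈ S with f3 h = c, G h ≤ D * (La / H) ^ (1 / 3 : ℝ) := by
    intro c hc
    obtain ⟨h', hh', hc'⟩ := Finset.mem_image.1 hc
    have hc0 : c ≠ 0 := hc' ▸ (hS h' hh').2.2.2.2.1
    have hT : Blk i j ((S.filter fun h => f3 h = c).image fun h => (f1 h, f2 h)) := by
      intro x hx
      obtain ⟨h, hh, rfl⟩ := Finset.mem_image.1 hx
      obtain ⟨-, e2, e3, e4, -, -, e7, e8⟩ := hS h (Finset.mem_filter.1 hh).1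
      have a1 := blk_log hB _ (hB.b2.ne _ e2.1)
      have a2 := blk_log hB _ (hB.b2.ne _ e3.1)
      rw [e7] at a1; rw [e8] at a2
      exact ⟨e2, e3, e4, a1.1, a1.2, a2.1, a2.2⟩
    refine le_trans (le_of_eq ?_) (hb c hc0 _ hT hLH)
    rw [Finset.sum_image]
    · refine Finset.sum_congr rfl fun h hh => ?_
      obtain ⟨hh1, hh2⟩ := Finset.mem_filter.1 hh
      rw [← hh2]
      exact congrArg G (hS h hh1).2.2.2.2.2.1
    · intro a ha b hb' hab
      obtain ⟨ha1, ha2⟩ := Finset.mem_filter.1 ha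
      obtain ⟨hb1, hb2⟩ := Finset.mem_filter.1 hb'
      have e1 := (hS a ha1).2.2.2.2.2.1
      have e2 := (hS b hb1).2.2.2.2.2.1
      simp only [Prod.mk.injEq] at hab
      rw [e1, e2, hab.1, hab.2, ha2, hb2]
  refine (Finset.sum_le_card_nsmul _ _ _ hfib).trans ?_
  rw [nsmul_eq_mul]
  have hH0 : 0 < H := by linarith
  have hone : (H / La) ^ (1 / 3 : ℝ) * (La / H) ^ (1 / 3 : ℝ) = 1 := by
    rw [← Real.mul_rpow (by positivity) (by positivity)]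
    have : H / La * (La / H) = 1 := by field_simp
    rw [this, Real.one_rpow]
  calc ((S.image f3).card : ℝ) * (D * (La / H) ^ (1 / 3 : ℝ))
      ≤ 16 * (H / La) ^ (1 / 3 : ℝ) * (D * (La / H) ^ (1 / 3 : ℝ)) :=
        mul_le_mul_of_nonneg_right hcard (by positivity)
    _ = 16 * D * ((H / La) ^ (1 / 3 : ℝ) * (La / H) ^ (1 / 3 : ℝ)) := by ring
    _ = 16 * D := by rw [hone, mul_one]

theorem card54 : (U54.card : ℝ) ≤ 54 := by
  have h1 : U6.card ≤ 6 := Finset.card_le_six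
  have h2 : U54.card ≤ 54 := by
    refine Finset.card_image_le.trans ?_
    rw [Finset.card_product, Finset.card_product, Finset.card_range]
    omega
  exact_mod_cast h2

end BLKM

open BLKM in
theorem blkS (hB : Bas) (hD : DECStmt3) : BLKStmt := by
  intro ε hε
  obtain ⟨C, hC, hl⟩ := logb ε hε
  refine ⟨54 * 16 * C, by positivity, fun G H D S hH hD0 hG hS hb => ?_⟩
  have hch : ∀ h : O, ∃ u h1 h2 h3 : O, h ≠ 0 → u ∈ U54 ∧ OP h1 ∧ OP h2 ∧ Squarefree (h1 * h2) ∧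
      h3 ≠ 0 ∧ h = u * (h1 * h2 ^ 2) * h3 ^ 3 := by
    intro h
    by_cases h0 : h = 0
    · exact ⟨0, 0, 0, 0, fun hh => absurd h0 hh⟩
    · obtain ⟨u, hu, h1, h2, h3, e⟩ := hD.1 h h0
      exact ⟨u, h1, h2, h3, fun _ => ⟨hu, e⟩⟩
  choose fu f1 f2 f3 hf using hch
  set L := Nat.log 2 ⌊H⌋₊ with hL
  have hfl : ⌊H⌋₊ ≠ 0 := by
    have := Nat.floor_pos.2 hH; omega
  have hL2 : (2 : ℝ) ^ L ≤ H := by
    have a1 : ((2 ^ L : ℕ) : ℝ) ≤ (⌊H⌋₊ : ℝ) := by exact_mod_cast Nat.pow_log_le_self 2 hfl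
    push_cast at a1
    exact a1.trans (Nat.floor_le (by linarith))
  have hle : ∀ h ∈ S, N (f1 h) ≤ H ∧ N (f2 h) ≤ H := by
    intro h hh
    obtain ⟨e0, e2, e3, -, e5, e6⟩ := hf h (hS h hh).1
    have a1 := hB.b1.N_one_le _ (hB.b2.ne _ e2.1)
    have a2 := hB.b1.N_one_le _ (hB.b2.ne _ e3.1)
    have a3 := hB.b1.N_one_le _ (hD.2.2.1 _ e0)
    have a4 : 1 ≤ N (f3 h) ^ 3 := one_le_pow₀ (hB.b1.N_one_le _ e5)
    have a5 : N h = N (fu h) * (N (f1 h) * N (f2 h) ^ 2) * N (f3 h) ^ 3 := by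
      conv_lhs => rw [e6]
      rw [hB.b1.N_mul, hB.b1.N_mul, hB.b1.N_mul, hB.b1.N_pow, hB.b1.N_pow]
    have a6 : N (f1 h) * N (f2 h) ^ 2 ≤ H := by
      have b1 : 0 ≤ N (f1 h) * N (f2 h) ^ 2 := by positivity
      have b2 := le_mul_of_one_le_left b1 a3
      have b3 := le_mul_of_one_le_right (b1.trans b2) a4
      have := (hS h hh).2
      linarith
    have a7 : N (f2 h) ≤ N (f2 h) ^ 2 := by nlinarith
    constructor <;> nlinarith
  have hlog : ∀ a : O, N a ≤ H → Nat.log 2 (Nn a) ∈ Finset.range (L + 1) := by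
    intro a ha
    rw [Finset.mem_range, Nat.lt_succ_iff]
    exact Nat.log_mono_right (Nat.le_floor ha)
  rw [← Finset.sum_fiberwise_of_maps_to (s := S)
    (t := U54 ×ˢ Finset.range (L + 1) ×ˢ Finset.range (L + 1))
    (g := fun h => (fu h, Nat.log 2 (Nn (f1 h)), Nat.log 2 (Nn (f2 h))))
    (fun h hh => Finset.mem_product.2 ⟨(hf h (hS h hh).1).1,
      Finset.mem_product.2 ⟨hlog _ (hle h hh).1, hlog _ (hle h hh).2⟩⟩)]
  have hfib : ∀ y ∈ U54 ×ˢ Finset.range (L + 1) ×ˢ Finset.range (L + 1),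
      ∑ h ∈ S with (fu h, Nat.log 2 (Nn (f1 h)), Nat.log 2 (Nn (f2 h))) = y, G h ≤ 16 * D := by
    rintro ⟨u, i, j⟩ hy
    have hu : u ∈ U54 := (Finset.mem_product.1 hy).1
    refine inner hB G H D _ hH hD0 u (hD.2.2.1 u hu) i j f1 f2 f3 (fun h hh => ?_)
      (fun h3 h30 T hT hLa => hb u hu h3 h30 i j T hT hLa)
    obtain ⟨hh1, hh2⟩ := Finset.mem_filter.1 hh
    simp only [Prod.mk.injEq] at hh2
    obtain ⟨-, e2, e3, e4, e5, e6⟩ := hf h (hS h hh1).1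
    exact ⟨(hS h hh1).2, e2, e3, e4, e5, hh2.1 ▸ e6, hh2.2.1, hh2.2.2⟩
  refine (Finset.sum_le_card_nsmul _ _ _ hfib).trans ?_
  rw [nsmul_eq_mul, Finset.card_product, Finset.card_product, Finset.card_range]
  push_cast
  have a1 := hl H L hH hL2
  have a2 := card54
  calc (U54.card : ℝ) * (((L : ℝ) + 1) * (L + 1)) * (16 * D)
      ≤ 54 * (C * H ^ ε) * (16 * D) := by
        refine mul_le_mul_of_nonneg_right ?_ (by positivity)
        exact mul_le_mul a2 (by nlinarith) (by positivity) (by norm_num)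
    _ = _ := by ring

end Vale.Agent.P006
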