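import Vale.Agent.P006.LS
import Vale.Agent.P006.CLS

/-! P006: the classical large sieve in the form `CLSStmt`. -/

namespace Vale.Agent.P006
open Vale.Agent.P026

theorem clsS (hB : Bas) (hC : CRStmt) (hH : HD) (h1 : PO1Stmt) (hG : GFStmt) : CLSStmt := by
  obtain ⟨C, C0, h⟩ := CLS.cubic' hB hC hH h1 hG
  exact ⟨C, C0, fun S T a M Q M1 _ hS hT => h S T a M Q (zero_le_one.trans M1) hS hT⟩

end Vale.Agent.P006
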