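import Vale.Agent.P006.LS

noncomputable section
open Complex
open scoped Classical ComplexConjugate

namespace Vale.Agent.P006
open Vale.Agent.P026

namespace CNTM

theorem le_of_log {a b : ℝ} (ha : 0 < a) (hb : 0 < b) (h : Real.log a ≤ Real.log b) : a ≤ b :=
  (Real.log_le_log_iff ha hb).1 h

theorem nq_le (hB : Bas) {K A : ℝ} {T : Finset O} {a : O → ℂ} (hK : 0 ≤ K) (hT : PT K T)
    (ha : ∀ n, ‖a n‖ ≤ A) : nq T a ≤ 16 * K * A ^ 2 := by
  have h1 := hB.b3.card_le K T hK fun n hn => ⟨hB.b2.ne n (hT n hn).1, (hT n hn).2⟩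
  have h2 : nq T a ≤ T.card • A ^ 2 :=
    Finset.sum_le_card_nsmul _ _ _ fun n _ => pow_le_pow_left₀ (norm_nonneg _) (ha n) 2
  rw [nsmul_eq_mul] at h2
  exact h2.trans (mul_le_mul_of_nonneg_right h1 (sq_nonneg _))

theorem twist (hB : Bas) {K : ℝ} {T : Finset O} (hT : PT K T) (a : O → ℂ) (h u : O) :
    cp T a (h * u) = cp T (fun n => a n * cub u n) h := by
  refine Finset.sum_congr rfl fun n hn => ?_
  rw [hB.b6.mul_l h u n (hB.b2.cop n (hT n hn).1)]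
  ring

theorem qt_pt {K : ℝ} {T : Finset O} (hT : QT K T) : PT K T :=
  fun n hn => ⟨(hT n hn).1.1, (hT n hn).2.2⟩

/-- reduction to the fibres over the second coordinate -/
theorem fibre (hB : Bas) {i j : ℕ} {S : Finset (O × O)} {T : Finset O} {a : O → ℂ} {Y V r : ℝ}
    (hS : Blk i j S) (hT : PT Y T) (ha : ∀ n, ‖a n‖ ≤ 1) (hr : 0 ≤ r)
    (hV : ∀ x ∈ S, V ≤ ‖cp T a (x.1 * x.2 ^ 2)‖)
    (h : ∀ (S' : Finset O) (a' : O → ℂ), QT (2 ^ (i + 1)) S' → (∀ n, ‖a' n‖ ≤ 1) →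
      (∀ m ∈ S', V ≤ ‖cp T a' m‖) → (S'.card : ℝ) ≤ r) :
    (S.card : ℝ) ≤ 32 * 2 ^ j * r := by
  have h1 : ((S.image Prod.snd).card : ℝ) ≤ 16 * 2 ^ (j + 1) := by
    refine hB.b3.card_le _ _ (by positivity) fun m hm => ?_
    obtain ⟨x, hx, rfl⟩ := Finset.mem_image.1 hm
    exact ⟨hB.b2.ne _ (hS x hx).2.1.1, (hS x hx).2.2.2.2.2.2.le⟩
  have h2 : ∀ m ∈ S.image Prod.snd, ((S.filter fun x => x.2 = m).card : ℝ) ≤ r := by
    intro m _
    have e : (S.filter fun x => x.2 = m).card = ((S.filter fun x => x.2 = m).image Prod.fst).card := by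
      refine (Finset.card_image_of_injOn fun x hx y hy hxy => ?_).symm
      exact Prod.ext hxy ((Finset.mem_filter.1 hx).2.trans (Finset.mem_filter.1 hy).2.symm)
    rw [e]
    refine h _ (fun n => a n * cub (m ^ 2) n) (fun k hk => ?_) (fun n => ?_) fun k hk => ?_
    · obtain ⟨x, hx, rfl⟩ := Finset.mem_image.1 hk
      have := hS x (Finset.mem_filter.1 hx).1
      exact ⟨this.1, this.2.2.1.squarefree_of_dvd (dvd_mul_right _ _), this.2.2.2.2.1.le⟩
    · rw [norm_mul]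
      exact mul_le_one₀ (ha n) (norm_nonneg _) (hB.b6.norm_le _ _)
    · obtain ⟨x, hx, rfl⟩ := Finset.mem_image.1 hk
      obtain ⟨hx1, rfl⟩ := Finset.mem_filter.1 hx
      rw [← twist hB hT]
      exact hV x hx1
  have h3 : (S.card : ℝ) = ∑ m ∈ S.image Prod.snd, ((S.filter fun x => x.2 = m).card : ℝ) := by
    rw [Finset.card_eq_sum_card_image Prod.snd S]
    push_cast
    rfl
  rw [h3]
  refine (Finset.sum_le_card_nsmul _ _ _ h2).trans ?_
  rw [nsmul_eq_mul]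
  refine (mul_le_mul_of_nonneg_right h1 hr).trans (le_of_eq ?_)
  ring

theorem low {S' T : Finset O} {a : O → ℂ} {V : ℝ} (hV0 : 0 ≤ V) (hV : ∀ m ∈ S', V ≤ ‖cp T a m‖) :
    (S'.card : ℝ) * V ^ 2 ≤ ∑ m ∈ S', ‖cp T a m‖ ^ 2 := by
  rw [← nsmul_eq_mul]
  exact Finset.card_nsmul_le_sum _ _ _ fun m hm => pow_le_pow_left₀ hV0 (hV m hm) 2

theorem ar2 {L1 L2 Y : ℝ} (h1 : 1 ≤ L1) (h2 : 1 ≤ L2) (hY : 1 ≤ Y) (h : L1 * L2 ^ 2 ≤ Y ^ 2)
    (ha : Y ^ (1 / 5 : ℝ) ≤ L2) (hb : L2 ≤ Y ^ (4 / 5 : ℝ)) :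
    L2 * ((2 * L1 * Y) ^ (1 / 10000 : ℝ) *
      (2 * L1 + (2 * L1 * Y) ^ (2 / 3 : ℝ) + (2 * L1) ^ (1 / 3 : ℝ) * Y) * Y /
        (Y ^ (33 / 40 : ℝ)) ^ 2) ≤ 12 * Y ^ (129 / 100 : ℝ) := by
  have p1 : 0 < L1 := by linarith
  have p2 : 0 < L2 := by linarith
  have pY : 0 < Y := by linarith
  have l1 := Real.log_nonneg h1
  have l2 := Real.log_nonneg h2
  have ly := Real.log_nonneg hY
  have l0 := Real.log_nonneg (show (1 : ℝ) ≤ 2 by norm_num)
  have e0 := Real.log_le_log (by positivity) h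
  have ea := Real.log_le_log (by positivity) ha
  have eb := Real.log_le_log p2 hb
  rw [Real.log_mul p1.ne' (by positivity), Real.log_pow, Real.log_pow] at e0
  rw [Real.log_rpow pY] at ea eb
  push_cast at e0
  have l4 : Real.log 4 = 2 * Real.log 2 := by
    rw [show (4 : ℝ) = 2 ^ 2 by norm_num, Real.log_pow]; norm_num
  have key : ∀ Z : ℝ, 0 < Z → Real.log L2 + Real.log Z ≤ Real.log 2 + 29 / 15 * Real.log Y →
      L2 * ((2 * L1 * Y) ^ (1 / 10000 : ℝ) * Z * Y / (Y ^ (33 / 40 : ℝ)) ^ 2) ≤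
        4 * Y ^ (129 / 100 : ℝ) := by
    intro Z hZ hz
    apply le_of_log (by positivity) (by positivity)
    simp (disch := positivity) only [Real.log_mul, Real.log_div, Real.log_rpow, Real.log_pow, l4]
    push_cast
    linarith
  have k1 := key (2 * L1) (by positivity) (by
    simp (disch := positivity) only [Real.log_mul]; linarith)
  have k2 := key ((2 * L1 * Y) ^ (2 / 3 : ℝ)) (by positivity) (by
    simp (disch := positivity) only [Real.log_mul, Real.log_rpow]; linarith)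
  have k3 := key ((2 * L1) ^ (1 / 3 : ℝ) * Y) (by positivity) (by
    simp (disch := positivity) only [Real.log_mul, Real.log_rpow]; linarith)
  calc _ = L2 * ((2 * L1 * Y) ^ (1 / 10000 : ℝ) * (2 * L1) * Y / (Y ^ (33 / 40 : ℝ)) ^ 2) +
        L2 * ((2 * L1 * Y) ^ (1 / 10000 : ℝ) * (2 * L1 * Y) ^ (2 / 3 : ℝ) * Y / (Y ^ (33 / 40 : ℝ)) ^ 2) +
        L2 * ((2 * L1 * Y) ^ (1 / 10000 : ℝ) * ((2 * L1) ^ (1 / 3 : ℝ) * Y) * Y /
          (Y ^ (33 / 40 : ℝ)) ^ 2) := by ring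
    _ ≤ _ := by linarith

theorem ar1 {A c R Y : ℝ} (hA : 0 ≤ A) (hc : 1 ≤ c) (hY : 1 ≤ Y)
    (h : R * ((Y ^ (33 / 40 : ℝ)) ^ 3) ^ 2 ≤ A * (2 * Y ^ 2) ^ (1 / 10000 : ℝ) *
      (Y * Y * Y + (2 * Y ^ 2) ^ 3 / (Y * Y * Y) +
        (Y * Y * Y) ^ (2 / 3 : ℝ) * (2 * Y ^ 2) ^ (1 / 3 : ℝ) * R ^ (1 / 3 : ℝ)) *
      (16 * (Y * Y * Y) * (c * (Y * Y * Y) ^ (1 / 10000 : ℝ) *
        (c * (Y * Y) ^ (1 / 10000 : ℝ) * 1 * 1) * 1) ^ 2)) :
    R ≤ (352 * (A + 1) * c ^ 4) ^ 2 * Y ^ (109 / 100 : ℝ) := by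
  have pY : 0 < Y := by linarith
  have pc : 0 < c := by linarith
  have hc4 : 1 ≤ c ^ 4 := one_le_pow₀ hc
  have hA' : 1 ≤ 352 * (A + 1) * c ^ 4 := by nlinarith
  by_cases hR : R ≤ Y ^ (109 / 100 : ℝ)
  · exact hR.trans (le_mul_of_one_le_left (by positivity) (one_le_pow₀ hA'))
  have hR' : Y ^ (109 / 100 : ℝ) < R := not_le.1 hR
  have pR : 0 < R := lt_trans (by positivity) hR'
  have ly := Real.log_nonneg hY
  have l0 := Real.log_nonneg (show (1 : ℝ) ≤ 2 by norm_num)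
  have eR := Real.log_le_log (by positivity) hR'.le
  rw [Real.log_rpow pY] at eR
  have b1 : Y * Y * Y + (2 * Y ^ 2) ^ 3 / (Y * Y * Y) ≤ 9 * (Y ^ (8 / 3 : ℝ) * R ^ (1 / 3 : ℝ)) := by
    have : Y * Y * Y + (2 * Y ^ 2) ^ 3 / (Y * Y * Y) = 9 * Y ^ 3 := by field_simp; ring
    rw [this]
    refine mul_le_mul_of_nonneg_left (le_of_log (by positivity) (by positivity) ?_) (by norm_num)
    simp (disch := positivity) only [Real.log_mul, Real.log_rpow, Real.log_pow]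
    push_cast
    linarith
  have b2 : (Y * Y * Y) ^ (2 / 3 : ℝ) * (2 * Y ^ 2) ^ (1 / 3 : ℝ) * R ^ (1 / 3 : ℝ) ≤
      2 * (Y ^ (8 / 3 : ℝ) * R ^ (1 / 3 : ℝ)) := by
    apply le_of_log (by positivity) (by positivity)
    simp (disch := positivity) only [Real.log_mul, Real.log_rpow, Real.log_pow]
    push_cast
    linarith
  have b3 : (2 * Y ^ 2) ^ (1 / 10000 : ℝ) ≤ 2 * Y ^ (2 / 10000 : ℝ) := by
    apply le_of_log (by positivity) (by positivity)
    simp (disch := positivity) only [Real.log_mul, Real.log_rpow, Real.log_pow]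
    push_cast
    linarith
  have b4 : R * ((Y ^ (33 / 40 : ℝ)) ^ 3) ^ 2 ≤ (352 * (A + 1) * c ^ 4) * (Y ^ (2 / 10000 : ℝ) *
      (Y ^ (8 / 3 : ℝ) * R ^ (1 / 3 : ℝ)) * ((Y * Y * Y) * ((Y * Y * Y) ^ (1 / 10000 : ℝ) *
        (Y * Y) ^ (1 / 10000 : ℝ)) ^ 2)) := by
    refine h.trans ?_
    calc _ ≤ (A + 1) * (2 * Y ^ (2 / 10000 : ℝ)) * (11 * (Y ^ (8 / 3 : ℝ) * R ^ (1 / 3 : ℝ))) *
          (16 * (Y * Y * Y) * (c * (Y * Y * Y) ^ (1 / 10000 : ℝ) *
            (c * (Y * Y) ^ (1 / 10000 : ℝ) * 1 * 1) * 1) ^ 2) := by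
          gcongr <;> linarith
      _ = _ := by ring
  have b5 := Real.log_le_log (by positivity) b4
  have lA := Real.log_nonneg hA'
  apply le_of_log pR (by positivity)
  generalize 352 * (A + 1) * c ^ 4 = D at *
  have pD : 0 < D := by linarith
  simp (disch := positivity) only [Real.log_mul, Real.log_rpow, Real.log_pow] at b5 ⊢
  push_cast at b5 ⊢
  linarith

end CNTM

open CNTM

theorem cntS (hB : Bas) (hD : DUAStmt) (hH : HBAStmt) (hR : RLSStmt) (hV : CONVStmt) : CNTStmt := by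
  obtain ⟨CH, hCH, hH⟩ := hH (1 / 10000) (by norm_num)
  obtain ⟨CR, hCR, hR⟩ := hR (1 / 10000) (by norm_num)
  obtain ⟨CV, hCV, hV⟩ := hV (1 / 10000) (by norm_num)
  refine ⟨1024 + 32 * 16 * 12 * CH + 32 * (352 * (CR + 1) * CV ^ 4) ^ 2, by positivity, ?_⟩
  intro i j S T a Y hS hY hL hT ha hbig
  have pY : 0 < Y := by linarith
  have hPT := qt_pt hT
  have h1 : (1 : ℝ) ≤ 2 ^ i := one_le_pow₀ (by norm_num)
  have h2 : (1 : ℝ) ≤ 2 ^ j := one_le_pow₀ (by norm_num)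
  have hL' : (2 : ℝ) ^ i * (2 ^ j) ^ 2 ≤ Y ^ 2 := by
    rw [← pow_mul, ← pow_add, mul_comm j 2]; exact hL
  have hY0 : 0 ≤ Y ^ (129 / 100 : ℝ) := by positivity
  have fin : ∀ c : ℝ, c ≤ 1024 + 32 * 16 * 12 * CH + 32 * (352 * (CR + 1) * CV ^ 4) ^ 2 →
      (S.card : ℝ) ≤ c * Y ^ (129 / 100 : ℝ) → (S.card : ℝ) ≤
        (1024 + 32 * 16 * 12 * CH + 32 * (352 * (CR + 1) * CV ^ 4) ^ 2) * Y ^ (129 / 100 : ℝ) :=
    fun c hc h => h.trans (mul_le_mul_of_nonneg_right hc hY0)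
  have q1 : 0 ≤ 32 * (352 * (CR + 1) * CV ^ 4) ^ 2 := by positivity
  have q2 : 0 ≤ 32 * 16 * 12 * CH := by positivity
  rcases le_total ((2 : ℝ) ^ j) (Y ^ (1 / 5 : ℝ)) with hj | hj
  · refine fin _ (by linarith : 32 * (352 * (CR + 1) * CV ^ 4) ^ 2 ≤ _) ?_
    refine (fibre hB (r := (352 * (CR + 1) * CV ^ 4) ^ 2 * Y ^ (109 / 100 : ℝ)) hS hPT ha
      (by positivity) hbig fun S' a' hS' ha' hb' => ?_).trans ?_
    · obtain ⟨T2, c2, hT2, hc2, e2⟩ := hV T T a' a' Y Y 1 1 hY hY zero_le_one zero_le_one hPT hPT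
        ha' ha'
      have hYY : 1 ≤ Y * Y := by nlinarith
      have hY3 : 1 ≤ Y * Y * Y := by nlinarith
      obtain ⟨T3, c3, hT3, hc3, e3⟩ := hV T2 T c2 a' (Y * Y) Y _ 1 hYY hY (by positivity)
        zero_le_one hT2 hPT hc2 ha'
      have hK : (1 : ℝ) ≤ 2 * Y ^ 2 := by nlinarith
      have hS'' : QT (2 * Y ^ 2) S' := fun n hn => by
        refine ⟨(hS' n hn).1, (hS' n hn).2.1, (hS' n hn).2.2.trans ?_⟩
        rw [pow_succ]
        nlinarith [one_le_pow₀ (n := 2) h2]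
      have m1 := hD _ _ _ _ (by positivity) (hR (Y * Y * Y) (2 * Y ^ 2) S'.card hY3 hK
        (Nat.cast_nonneg _)) S' T3 c3 hS'' le_rfl hT3
      have m2 := low (S' := S') (T := T3) (a := c3) (V := (Y ^ (33 / 40 : ℝ)) ^ 3) (by positivity)
        fun m hm => by
          rw [e3, e2, norm_mul, norm_mul, ← pow_three']
          exact pow_le_pow_left₀ (by positivity) (hb' m hm) 3
      have m3 := nq_le hB (by positivity) hT3 hc3
      exact ar1 hCR hCV hY (m2.trans (m1.trans (mul_le_mul_of_nonneg_left m3 (by positivity))))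
    · have : (2 : ℝ) ^ j * Y ^ (109 / 100 : ℝ) ≤ Y ^ (129 / 100 : ℝ) := by
        refine (mul_le_mul_of_nonneg_right hj (by positivity)).trans (le_of_eq ?_)
        rw [← Real.rpow_add pY]; norm_num
      nlinarith [mul_le_mul_of_nonneg_left this q1]
  rcases le_total ((2 : ℝ) ^ j) (Y ^ (4 / 5 : ℝ)) with hj' | hj'
  · refine fin _ (by linarith : 32 * 16 * 12 * CH ≤ _) ?_
    refine (fibre hB (r := 16 * CH * ((2 * 2 ^ i * Y) ^ (1 / 10000 : ℝ) *
      (2 * 2 ^ i + (2 * 2 ^ i * Y) ^ (2 / 3 : ℝ) + (2 * 2 ^ i) ^ (1 / 3 : ℝ) * Y) * Y /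
        (Y ^ (33 / 40 : ℝ)) ^ 2)) hS hPT ha
      (by positivity) hbig fun S' a' hS' ha' hb' => ?_).trans ?_
    · have m1 := hH (2 * 2 ^ i) Y T.card (by linarith) hY S' T a'
        (fun m hm => ⟨trivial, by rw [← pow_succ']; exact (hS' m hm).2.2⟩) hT le_rfl
      have m2 := low (S' := S') (T := T) (a := a') (by positivity) hb'
      have m3 := nq_le hB pY.le hPT ha'
      have m4 := m2.trans (m1.trans (mul_le_mul_of_nonneg_left m3 (by positivity)))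
      rw [← mul_div_assoc, le_div_iff₀ (by positivity)]
      refine m4.trans (le_of_eq ?_)
      ring
    · have := ar2 h1 h2 hY hL' hj hj'
      nlinarith [mul_le_mul_of_nonneg_left this (by positivity : 0 ≤ 32 * 16 * CH)]
  · refine fin 1024 (by linarith) ?_
    refine (fibre hB (r := 32 * 2 ^ i) hS hPT ha (by positivity) hbig
      fun S' a' hS' _ _ => ?_).trans ?_
    · refine (hB.b3.card_le (2 ^ (i + 1)) S' (by positivity) fun m hm =>
        ⟨hB.b2.ne _ (hS' m hm).1.1, (hS' m hm).2.2⟩).trans (le_of_eq ?_)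
      ring
    · have : (2 : ℝ) ^ j * 2 ^ i ≤ Y ^ (129 / 100 : ℝ) := by
        have e0 := Real.log_le_log (by positivity) hL'
        have eb := Real.log_le_log (by positivity) hj'
        have ly := Real.log_nonneg hY
        apply le_of_log (by positivity) (by positivity)
        generalize (2 : ℝ) ^ i = L1 at *
        generalize (2 : ℝ) ^ j = L2 at *
        have p1 : 0 < L1 := by linarith
        have p2 : 0 < L2 := by linarith
        simp (disch := positivity) only [Real.log_mul, Real.log_rpow, Real.log_pow] at e0 eb ⊢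
        push_cast at e0
        linarith
      linarith

end Vale.Agent.P006
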