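import Vale.Agent.P006.LS

/-! P006 row CONV: products of character polynomials. -/

noncomputable section
open Complex
open scoped Classical ComplexConjugate

namespace Vale.Agent.P006
open Vale.Agent.P026

theorem convS (hB : Bas) : CONVStmt := by
  intro ε hε
  obtain ⟨C, hC⟩ := hB.b3.div ε hε
  refine ⟨max C 1, le_max_right _ _, ?_⟩
  intro T1 T2 a1 a2 Y1 Y2 A1 A2 hY1 hY2 hA1 hA2 h1 h2 b1 b2
  have N0 : ∀ a : O, 0 ≤ N a := fun a => Nat.cast_nonneg _
  refine ⟨(T1 ×ˢ T2).image fun x => x.1 * x.2,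
    fun n => ∑ x ∈ (T1 ×ˢ T2).filter (fun x => x.1 * x.2 = n), a1 x.1 * a2 x.2, ?_, ?_, ?_⟩
  · intro n hn
    obtain ⟨x, hx, rfl⟩ := Finset.mem_image.1 hn
    rw [Finset.mem_product] at hx
    refine ⟨hB.b2.mul _ _ (h1 _ hx.1).1 (h2 _ hx.2).1, ?_⟩
    rw [hB.b1.N_mul]
    exact mul_le_mul (h1 _ hx.1).2 (h2 _ hx.2).2 (N0 _) (by linarith)
  · intro n
    have c1 : (0 : ℝ) ≤ max C 1 := zero_le_one.trans (le_max_right _ _)
    have hc : (((T1 ×ˢ T2).filter (fun x => x.1 * x.2 = n)).card : ℝ) ≤ max C 1 * (Y1 * Y2) ^ ε := by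
      rcases ((T1 ×ˢ T2).filter (fun x => x.1 * x.2 = n)).eq_empty_or_nonempty with h | ⟨y, hy⟩
      · rw [h]; simp only [Finset.card_empty, Nat.cast_zero]; positivity
      simp only [Finset.mem_filter, Finset.mem_product] at hy
      have n0 : n ≠ 0 := hy.2 ▸ mul_ne_zero (hB.b2.ne _ (h1 _ hy.1.1).1) (hB.b2.ne _ (h2 _ hy.1.2).1)
      have nN : N n ≤ Y1 * Y2 := by
        rw [← hy.2, hB.b1.N_mul]
        exact mul_le_mul (h1 _ hy.1.1).2 (h2 _ hy.1.2).2 (N0 _) (by linarith)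
      have inj : Set.InjOn Prod.fst (((T1 ×ˢ T2).filter (fun x => x.1 * x.2 = n) : Finset (O × O)) :
          Set (O × O)) := by
        intro x hx z hz e
        simp only [Finset.coe_filter, Finset.mem_product, Set.mem_ofPred_eq] at hx hz
        refine Prod.ext e (mul_left_cancel₀ (hB.b2.ne _ (h1 _ hx.1.1).1) ?_)
        rw [hx.2, e, hz.2]
      rw [← Finset.card_image_of_injOn inj]
      refine (hC n n0 _ fun d hd => ?_).trans ?_
      · obtain ⟨x, hx, rfl⟩ := Finset.mem_image.1 hd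
        exact ⟨x.2, (Finset.mem_filter.1 hx).2.symm⟩
      · have := N0 n
        exact mul_le_mul (le_max_left _ _) (Real.rpow_le_rpow this nN hε.le) (by positivity) c1
    calc _ ≤ ∑ _x ∈ (T1 ×ˢ T2).filter (fun x => x.1 * x.2 = n), A1 * A2 := by
          refine (norm_sum_le _ _).trans (Finset.sum_le_sum fun x _ => ?_)
          rw [norm_mul]
          exact mul_le_mul (b1 _) (b2 _) (norm_nonneg _) hA1
      _ = (((T1 ×ˢ T2).filter (fun x => x.1 * x.2 = n)).card : ℝ) * (A1 * A2) := by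
          rw [Finset.sum_const, nsmul_eq_mul]
      _ ≤ max C 1 * (Y1 * Y2) ^ ε * (A1 * A2) := by gcongr
      _ = _ := by ring
  · intro m
    unfold cp
    rw [Finset.sum_mul_sum, ← Finset.sum_product',
      ← Finset.sum_fiberwise_of_maps_to (s := T1 ×ˢ T2) (g := fun x => x.1 * x.2)
        (t := (T1 ×ˢ T2).image fun x => x.1 * x.2) fun x hx => Finset.mem_image_of_mem _ hx]
    refine Finset.sum_congr rfl fun n _ => ?_
    rw [Finset.sum_mul]
    refine Finset.sum_congr rfl fun x hx => ?_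
    simp only [Finset.mem_filter, Finset.mem_product] at hx
    rw [← hx.2, hB.b6.mul_r _ _ _ (hB.b2.ne _ (h1 _ hx.1.1).1) (hB.b2.ne _ (h2 _ hx.1.2).1)]
    ring

end Vale.Agent.P006
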