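import Vale.Agent.P006.LS

/-! P006 branch B: decomposition `h = u h1 h2^2 h3^3`. -/

noncomputable section
open Complex
open scoped Classical ComplexConjugate

namespace Vale.Agent.P006
open Vale.Agent.P026

namespace DECM

theorem vle1 (hB : Bas) (h8 : B8) {n p : O} (hn : Prim n) (hs : Squarefree n) (hp : Prime p)
    (hq : Prim p) : vl p n ≤ 1 := by
  have h0 := hB.b2.ne n hn
  by_cases hd : p ∣ n
  · exact ((h8.sqf n hn).1 hs p ((h8.mem n p h0).2 ⟨hp, hq, hd⟩)).le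
  · rw [(h8.vl_zero p n hp h0).2 hd]; norm_num

theorem ext (hB : Bas) (h8 : B8) {a b : O} (ha : Prim a) (hb : Prim b)
    (h : ∀ p, Prime p → Prim p → vl p a = vl p b) : a = b := by
  have hP : ∀ p ∈ pf a ∪ pf b, Prime p ∧ Prim p := by
    intro p hp
    rcases Finset.mem_union.1 hp with hp | hp
    · have := (h8.mem a p (hB.b2.ne a ha)).1 hp; exact ⟨this.1, this.2.1⟩
    · have := (h8.mem b p (hB.b2.ne b hb)).1 hp; exact ⟨this.1, this.2.1⟩
  exact (h8.prod' a _ ha Finset.subset_union_left hP).trans ((Finset.prod_congr rfl fun p hp => by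
    rw [h p (hP p hp).1 (hP p hp).2]).trans (h8.prod' b _ hb Finset.subset_union_right hP).symm)

theorem prim_prod (hB : Bas) (P : Finset O) (f : O → ℕ) (hP : ∀ p ∈ P, Prim p) :
    Prim (∏ p ∈ P, p ^ f p) :=
  Finset.prod_induction _ Prim (hB.b2.mul) hB.b2.one fun p hp => hB.b2.pow p _ (hP p hp)

theorem mem54 {u : O} (hu : u ∈ U54) : ∃ (e : O) (a b : ℕ), e ∈ U6 ∧ u = e * lam ^ a * 2 ^ b := by
  obtain ⟨x, hx, rfl⟩ := Finset.mem_image.1 hu
  exact ⟨x.1, x.2.1, x.2.2, (Finset.mem_product.1 hx).1, rfl⟩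

theorem ne54 (hB : Bas) {u : O} (hu : u ∈ U54) : u ≠ 0 := by
  obtain ⟨e, a, b, he, rfl⟩ := mem54 hu
  exact mul_ne_zero (mul_ne_zero ((hB.b1.units e).2 he).ne_zero
    (pow_ne_zero _ hB.b1.prime_lam.ne_zero)) (pow_ne_zero _ hB.b1.prime_two.ne_zero)

theorem ndvd54 (hB : Bas) {u p : O} (hu : u ∈ U54) (hp : Prime p) (ho : OP p) : ¬ p ∣ u := by
  obtain ⟨e, a, b, he, rfl⟩ := mem54 hu
  intro hd
  rcases hp.dvd_or_dvd hd with hd | hd
  · rcases hp.dvd_or_dvd hd with hd | hd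
    · exact hp.not_unit (isUnit_of_dvd_unit hd ((hB.b1.units e).2 he))
    · have h1 : p ∣ lam := hp.dvd_of_dvd_pow hd
      have h2 : p ∣ 3 := by
        have h3 : p ∣ -lam ^ 2 := (dvd_neg).2 (h1.trans (dvd_pow_self _ two_ne_zero))
        rwa [hB.b1.lam_sq, neg_neg] at h3
      exact hp.not_unit ((hB.b2.cop p ho.1).isUnit_of_dvd' dvd_rfl h2)
  · exact hp.not_unit (ho.2.isUnit_of_dvd' dvd_rfl (hp.dvd_of_dvd_pow hd))

theorem split (hB : Bas) (h8 : B8) {k : O} (hk : OP k) : ∃ h1 h2 k3 : O, OP h1 ∧ OP h2 ∧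
    Squarefree (h1 * h2) ∧ k3 ≠ 0 ∧ k = h1 * h2 ^ 2 * k3 ^ 3 := by
  have k0 := hB.b2.ne k hk.1
  have hP : ∀ p ∈ pf k, Prime p ∧ Prim p := fun p hp =>
    ⟨((h8.mem k p k0).1 hp).1, ((h8.mem k p k0).1 hp).2.1⟩
  have hP' : ∀ p ∈ pf k, Prim p := fun p hp => (hP p hp).2
  set f1 : O → ℕ := fun p => if vl p k % 3 = 1 then 1 else 0 with hf1
  set f2 : O → ℕ := fun p => if vl p k % 3 = 2 then 1 else 0 with hf2
  set f3 : O → ℕ := fun p => vl p k / 3 with hf3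
  have e : k = (∏ p ∈ pf k, p ^ f1 p) * (∏ p ∈ pf k, p ^ f2 p) ^ 2 * (∏ p ∈ pf k, p ^ f3 p) ^ 3 := by
    conv_lhs => rw [h8.prod k hk.1]
    rw [← Finset.prod_pow, ← Finset.prod_pow, ← Finset.prod_mul_distrib, ← Finset.prod_mul_distrib]
    refine Finset.prod_congr rfl fun p _ => ?_
    rw [← pow_mul, ← pow_mul, ← pow_add, ← pow_add]
    congr 1
    simp only [hf1, hf2, hf3]
    split_ifs <;> omega
  have p1 := prim_prod hB (pf k) f1 hP'
  have p2 := prim_prod hB (pf k) f2 hP'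
  have p3 := prim_prod hB (pf k) f3 hP'
  refine ⟨_, _, _, h8.op_dvd _ k hk p1 ?_, h8.op_dvd _ k hk p2 ?_, ?_, hB.b2.ne _ p3, e⟩
  · exact Dvd.intro _ ((mul_assoc _ _ _).symm.trans e.symm)
  · refine Dvd.intro ((∏ p ∈ pf k, p ^ f1 p) * (∏ p ∈ pf k, p ^ f2 p) *
      (∏ p ∈ pf k, p ^ f3 p) ^ 3) (Eq.trans ?_ e.symm)
    ring
  · have p12 := hB.b2.mul _ _ p1 p2
    refine (h8.sqf _ p12).2 fun q hq => ?_
    obtain ⟨q1, q2, q3⟩ := (h8.mem _ q (hB.b2.ne _ p12)).1 hq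
    have a1 : vl q ((∏ p ∈ pf k, p ^ f1 p) * ∏ p ∈ pf k, p ^ f2 p) ≠ 0 := fun h =>
      (h8.vl_zero q _ q1 (hB.b2.ne _ p12)).1 h q3
    rw [h8.vl_mul q _ _ q1 (hB.b2.ne _ p1) (hB.b2.ne _ p2), h8.vl_prod _ f1 q hP q1 q2,
      h8.vl_prod _ f2 q hP q1 q2] at a1 ⊢
    simp only [hf1, hf2] at a1 ⊢
    split_ifs at a1 ⊢ <;> omega

theorem N_sqf (hB : Bas) (h8 : B8) {n : O} (hn : Prim n) (hs : Squarefree n) :
    ∏ p ∈ pf n, N p = N n := by
  have e : rad n = n := by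
    conv_rhs => rw [h8.prod n hn]
    exact Finset.prod_congr rfl fun p hp => by rw [(h8.sqf n hn).1 hs p hp, pow_one]
  have := h8.N_rad n
  rw [e] at this
  exact this.symm

end DECM

open DECM in
theorem dec3S (hB : Bas) (h8 : B8) : DECStmt3 := by
  refine ⟨fun h h0 => ?_, fun u hu h1 h2 h3 o1 o2 hs h30 => ?_, fun u hu => ne54 hB hu,
    fun x y x1 x2 xs y1 y2 ys e => ?_⟩
  · obtain ⟨e, a, b, k, he, hk, rfl⟩ := h8.dec2 h h0
    obtain ⟨h1, h2, k3, o1, o2, hs, k0, ek⟩ := split hB h8 hk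
    refine ⟨e * lam ^ (a % 3) * 2 ^ (b % 3), ?_, h1, h2, lam ^ (a / 3) * 2 ^ (b / 3) * k3, o1, o2, hs,
      mul_ne_zero (mul_ne_zero (pow_ne_zero _ hB.b1.prime_lam.ne_zero)
        (pow_ne_zero _ hB.b1.prime_two.ne_zero)) k0, ?_⟩
    · refine Finset.mem_image.2 ⟨(e, a % 3, b % 3), ?_, rfl⟩
      exact Finset.mem_product.2 ⟨he, Finset.mem_product.2
        ⟨Finset.mem_range.2 (Nat.mod_lt _ (by norm_num)),
          Finset.mem_range.2 (Nat.mod_lt _ (by norm_num))⟩⟩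
    · have ea : lam ^ a = lam ^ (a % 3) * (lam ^ (a / 3)) ^ 3 := by
        rw [← pow_mul, ← pow_add]; congr 1; omega
      have eb : (2 : O) ^ b = 2 ^ (b % 3) * (2 ^ (b / 3)) ^ 3 := by
        rw [← pow_mul, ← pow_add]; congr 1; omega
      rw [ea, eb, ek]
      generalize lam ^ (a % 3) = A
      generalize lam ^ (a / 3) = A'
      generalize (2 : O) ^ (b % 3) = B
      generalize (2 : O) ^ (b / 3) = B'
      ring
  · have n1 := hB.b2.ne _ o1.1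
    have n2 := hB.b2.ne _ o2.1
    have o12 := h8.op_mul _ _ o1 o2
    have n12 := hB.b2.ne _ o12.1
    have u0 := ne54 hB hu
    have nm : h1 * h2 ^ 2 ≠ 0 := mul_ne_zero n1 (pow_ne_zero _ n2)
    have nh : u * (h1 * h2 ^ 2) * h3 ^ 3 ≠ 0 := mul_ne_zero (mul_ne_zero u0 nm) (pow_ne_zero _ h30)
    have hv : ∀ p, Prime p → OP p →
        (¬ 3 ∣ vl p (u * (h1 * h2 ^ 2) * h3 ^ 3) ↔ p ∣ h1 * h2) := by
      intro p hp ho
      have a1 := vle1 hB h8 o12.1 hs hp ho.1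
      have a2 := h8.vl_zero p _ hp n12
      rw [h8.vl_mul p _ _ hp (mul_ne_zero u0 nm) (pow_ne_zero _ h30), h8.vl_mul p _ _ hp u0 nm,
        h8.vl_mul p _ _ hp n1 (pow_ne_zero _ n2), h8.vl_pow p _ _ hp n2, h8.vl_pow p _ _ hp h30,
        (h8.vl_zero p u hp u0).2 (ndvd54 hB hu hp ho)]
      rw [h8.vl_mul p _ _ hp n1 n2] at a1 a2
      constructor
      · intro h
        by_contra hc
        have := a2.2 hc
        omega
      · intro h
        have : ¬ vl p h1 + vl p h2 = 0 := fun hc => a2.1 hc h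
        omega
    unfold cd
    rw [← hB.b1.N_mul, ← N_sqf hB h8 o12.1 hs]
    refine Finset.prod_congr ?_ fun _ _ => rfl
    ext p
    rw [Finset.mem_filter, h8.mem _ p nh, h8.mem _ p n12]
    constructor
    · rintro ⟨⟨a1, a2, -⟩, a3, a4⟩
      exact ⟨a1, a2, (hv p a1 a3).1 a4⟩
    · rintro ⟨a1, a2, a3⟩
      have a4 := h8.op_dvd p _ o12 a2 a3
      refine ⟨⟨a1, a2, a3.trans (Dvd.intro (u * h2 * h3 ^ 3) (by ring))⟩, a4, (hv p a1 a4).2 a3⟩
  · have hv : ∀ p, Prime p → Prim p → vl p x.1 = vl p y.1 ∧ vl p x.2 = vl p y.2 := by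
      intro p hp hq
      have a1 := vle1 hB h8 (hB.b2.mul _ _ x1.1 x2.1) xs hp hq
      have a2 := vle1 hB h8 (hB.b2.mul _ _ y1.1 y2.1) ys hp hq
      have a3 := congrArg (vl p) e
      have n1 := hB.b2.ne _ x1.1
      have n2 := hB.b2.ne _ x2.1
      have m1 := hB.b2.ne _ y1.1
      have m2 := hB.b2.ne _ y2.1
      rw [h8.vl_mul p _ _ hp n1 n2] at a1
      rw [h8.vl_mul p _ _ hp m1 m2] at a2
      rw [h8.vl_mul p _ _ hp n1 (pow_ne_zero _ n2), h8.vl_mul p _ _ hp m1 (pow_ne_zero _ m2),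
        h8.vl_pow p _ _ hp n2, h8.vl_pow p _ _ hp m2] at a3
      omega
    exact Prod.ext (ext hB h8 x1.1 y1.1 fun p hp hq => (hv p hp hq).1)
      (ext hB h8 x2.1 y2.1 fun p hp hq => (hv p hp hq).2)

end Vale.Agent.P006
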