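import Vale.Agent.P006.LS
import Vale.Agent.P006.Poi3

/-! P006 row DUA: duality. -/

noncomputable section
open Complex
open scoped Classical ComplexConjugate

namespace Vale.Agent.P006
open Vale.Agent.P026

theorem duaS (hB : Bas) (hC : CRStmt) : DUAStmt := by
  have _ := hB
  intro M K R B hB0 h S T a hS hR hT
  have h1 := Poi3.dual T S (fun m n => cub m n) B hB0
    (fun c => h T S c (fun m hm => ⟨trivial, (hT m hm).2⟩) hS hR) a
  refine le_trans (le_of_eq (Finset.sum_congr rfl fun n hn => ?_)) h1
  unfold cp
  congr 2
  exact Finset.sum_congr rfl fun m hm => by rw [hC n m (hS n hn).1.1 (hT m hm).1]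

end Vale.Agent.P006
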