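import Vale.Agent.P006.H23b
import Vale.Agent.P006.LS

/-! P006: Heath-Brown's cubic large sieve. -/

noncomputable section
open Complex
open scoped Classical ComplexConjugate

namespace Vale.Agent.P006

open Vale.Agent.P026 Vale.Agent.P026.KMM

theorem poisS (hB : Bas) (hC : CRStmt) (hH : HD) (h8 : B8) (hX : SX) (hS : SCHStmt) (h1 : PS1Stmt)
    (hΓ : GAM) : POISStmt := by
  intro ε hε
  obtain ⟨C, hC0, hc⟩ := pois hB hC hH h8 hX hS h1 hΓ ε hε
  refine ⟨C, hC0, fun Φ M K R Ψ hM hK hΨ hL hg hb => hc (fun H k => max (Φ H k) 0) M K R Ψ hM hK hΨ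
    (fun _ _ _ _ => le_max_right _ _) (fun H k a b c S T x d e f => (hL H k a b c S T x d e f).trans
      (mul_le_mul_of_nonneg_right (le_max_left _ _) (Finset.sum_nonneg fun _ _ => by positivity)))
    (fun H k t a b c => max_le ((hg t H k c a b).trans (by gcongr; exact le_max_left _ _))
      (by positivity)) fun k a b => ?_⟩
  rcases le_total (Φ (k ^ 2 / M) k) 0 with c | c
  · simpa [c] using hΨ
  · simpa [c] using hb k a b

namespace HBAM

def EE (ξ : ℝ) : Prop := ∀ ε : ℝ, 0 < ε → ∃ C : ℝ, 0 ≤ C ∧ ∀ M K R : ℝ, 1 ≤ M → 1 ≤ K →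
  LBB (fun _ => True) M K R (C * (M * K) ^ ε * (M + K ^ ξ + (M * K) ^ (2 / 3 : ℝ)))

def AA (ξ : ℝ) : Prop := ∀ ε : ℝ, 0 < ε → ∃ C : ℝ, 0 ≤ C ∧ ∀ H k R : ℝ, 1 ≤ H → 1 ≤ k →
  LBB (· ≠ 0) H k R (C * (H * k) ^ ε * (H ^ (1 / 3 : ℝ) * k + H ^ ξ + (H * k) ^ (2 / 3 : ℝ)))

lemma mono {P : O → Prop} {H H' K R B B' : ℝ} (h : LBB P H K R B) (h1 : H' ≤ H) (h2 : B ≤ B') :
    LBB P H' K R B' := fun S T a hS hT hR =>
  (h S T a (fun m hm => ⟨(hS m hm).1, (hS m hm).2.trans h1⟩) hT hR).trans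
    (mul_le_mul_of_nonneg_right h2 (Finset.sum_nonneg fun _ _ => by positivity))

lemma small (hB : Bas) {H k R B : ℝ} (hB0 : 0 ≤ B) (h : H < 1 ∨ k < 1) : LBB (· ≠ 0) H k R B := by
  intro S T a hS hT _
  rcases h with h | h
  · rw [Finset.eq_empty_of_forall_notMem (s := S) fun m hm =>
      h.not_ge ((hB.b1.N_one_le m (hS m hm).1).trans (hS m hm).2), Finset.sum_empty]
    exact mul_nonneg hB0 (Finset.sum_nonneg fun _ _ => by positivity)
  · rw [Finset.eq_empty_of_forall_notMem (s := T) fun n hn =>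
      h.not_ge ((hB.b1.N_one_le n (hB.b2.ne n (hT n hn).1.1)).trans (hT n hn).2.2)]
    simp

lemma cs (hB : Bas) (T : Finset O) (a : O → ℂ) (m : O) :
    ‖∑ n ∈ T, a n * cub m n‖ ^ 2 ≤ T.card * ∑ n ∈ T, ‖a n‖ ^ 2 :=
  (pow_le_pow_left₀ (norm_nonneg _) ((norm_sum_le _ _).trans (Finset.sum_le_sum fun n _ => by
    rw [norm_mul]; exact mul_le_of_le_one_right (norm_nonneg _) (hB.b6.norm_le _ _))) 2).trans
    sq_sum_le_card_mul_sum_sq

lemma base (hB : Bas) (hP : POISStmt) : EE 2 := by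
  intro ε hε
  obtain ⟨C, hC0, hc⟩ := hP ε hε
  refine ⟨256 * C, by positivity, fun M K R hM hK => mono (hc (fun H k => 256 * (H * k)) M K R
    (256 * K ^ 2) hM hK (by positivity) (fun H k a b _ S T x hS hT _ => ?_) (fun t H k a b c => ?_)
    fun k a b => ?_) le_rfl ?_⟩
  · refine (Finset.sum_le_card_nsmul _ _ _ fun m _ => cs hB T x m).trans ?_
    have c1 := hB.b3.card_le H S a.le hS
    have c2 := hB.b3.card_le k T b.le fun n hn => ⟨hB.b2.ne n (hT n hn).1.1, (hT n hn).2.2⟩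
    rw [nsmul_eq_mul]
    calc _ ≤ 16 * H * (16 * k * ∑ n ∈ T, ‖x n‖ ^ 2) := by gcongr
      _ = _ := by ring
  · have : t ≤ t ^ 3 := le_self_pow₀ a (by norm_num)
    nlinarith [mul_pos b c]
  · have : M / k * (256 * (k ^ 2 / M * k)) = 256 * k ^ 2 := by field_simp
    rw [this]; gcongr
  · have : K ^ ε ≤ (M * K) ^ ε := by gcongr; nlinarith
    have : 0 ≤ (M * K) ^ (2 / 3 : ℝ) := by positivity
    rw [Real.rpow_two]
    calc _ ≤ C * (M * K) ^ ε * (256 * (M + K ^ 2 + (M * K) ^ (2 / 3 : ℝ))) := by gcongr; linarith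
      _ = _ := by ring

lemma arith {a b L H k ξ : ℝ} (ha : 1 ≤ a) (hab : a ≤ b) (hL : a ^ 2 * b ≤ L) (hH : L ≤ H)
    (hk : 0 ≤ k) (hξ : 1 ≤ ξ) (hξ' : ξ ≤ 2) : a * (k + (2 * b) ^ ξ + (k * (2 * b)) ^ (2 / 3 : ℝ)) ≤
      4 * (H ^ (1 / 3 : ℝ) * k + H ^ ξ + (H * k) ^ (2 / 3 : ℝ)) * (L / H) ^ (1 / 3 : ℝ) := by
  have b1 : 1 ≤ b := ha.trans hab
  have L1 : 1 ≤ L := le_trans (one_le_mul_of_one_le_of_one_le (one_le_pow₀ ha) b1) hL
  have H0 : 0 < H := by linarith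
  have L0 : 0 < L := by linarith
  have e1 : a ≤ L ^ (1 / 3 : ℝ) := by
    rw [show (1 / 3 : ℝ) = (3 : ℝ)⁻¹ by norm_num, Real.le_rpow_inv_iff_of_pos (by linarith) L0.le
      (by norm_num), show (3 : ℝ) = (3 : ℕ) by norm_num, Real.rpow_natCast]
    nlinarith [sq_nonneg a]
  have e2 : a * b ^ ξ ≤ L ^ ξ := by
    refine le_trans ?_ (Real.rpow_le_rpow (by positivity) hL (by linarith))
    rw [Real.mul_rpow (by positivity) (by positivity)]
    gcongr
    exact (le_self_pow₀ ha two_ne_zero).trans (Real.self_le_rpow_of_one_le (one_le_pow₀ ha) hξ)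
  have e3 : a * b ^ (2 / 3 : ℝ) ≤ L ^ (2 / 3 : ℝ) := by
    refine le_trans ?_ (Real.rpow_le_rpow (by positivity) hL (by norm_num))
    rw [Real.mul_rpow (by positivity) (by positivity), ← Real.rpow_natCast,
      ← Real.rpow_mul (by linarith)]
    gcongr
    exact Real.self_le_rpow_of_one_le ha (by norm_num)
  have f : ∀ s : ℝ, 1 / 3 ≤ s → L ^ s ≤ H ^ s * (L / H) ^ (1 / 3 : ℝ) := fun s hs => by
    have : (L / H) ^ s ≤ (L / H) ^ (1 / 3 : ℝ) :=
      Real.rpow_le_rpow_of_exponent_ge (by positivity) ((div_le_one H0).2 hH) hs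
    rw [Real.div_rpow L0.le H0.le, div_le_iff₀ (by positivity)] at this
    linarith
  have g1 := e1.trans (f _ le_rfl)
  have g2 := e2.trans (f _ (by linarith))
  have g3 := e3.trans (f _ (by norm_num))
  have t : ∀ s : ℝ, s ≤ 2 → (2 : ℝ) ^ s ≤ 4 := fun s hs =>
    (Real.rpow_le_rpow_of_exponent_le one_le_two hs).trans (by norm_num)
  rw [Real.mul_rpow hk (by positivity), Real.mul_rpow zero_le_two (by positivity),
    Real.mul_rpow zero_le_two (by positivity), Real.mul_rpow H0.le hk]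
  calc _ ≤ a * (4 * k + 4 * b ^ ξ + k ^ (2 / 3 : ℝ) * (4 * b ^ (2 / 3 : ℝ))) := by
        gcongr
        · linarith
        · exact t _ hξ'
        · exact t _ (by norm_num)
    _ = 4 * (a * k + a * b ^ ξ + a * b ^ (2 / 3 : ℝ) * k ^ (2 / 3 : ℝ)) := by ring
    _ ≤ 4 * (H ^ (1 / 3 : ℝ) * (L / H) ^ (1 / 3 : ℝ) * k + H ^ ξ * (L / H) ^ (1 / 3 : ℝ) +
        H ^ (2 / 3 : ℝ) * (L / H) ^ (1 / 3 : ℝ) * k ^ (2 / 3 : ℝ)) := by gcongr
    _ = _ := by ring

lemma fib (hB : Bas) {B a : ℝ} (hB0 : 0 ≤ B) (ha : 0 ≤ a) (T : Finset (O × O)) (G : O × O → ℝ)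
    (h1 : ∀ x ∈ T, x.2 ≠ 0 ∧ N x.2 ≤ a)
    (h2 : ∀ y, ∑ x ∈ T.filter (·.2 = y), G x ≤ B) : ∑ x ∈ T, G x ≤ 16 * a * B := by
  rw [← Finset.sum_fiberwise_of_maps_to (g := Prod.snd) (t := T.image Prod.snd)
    fun x hx => Finset.mem_image_of_mem _ hx]
  refine (Finset.sum_le_card_nsmul _ _ _ fun y _ => h2 y).trans ?_
  rw [nsmul_eq_mul]
  gcongr
  refine hB.b3.card_le a _ ha fun y hy => ?_
  obtain ⟨x, hx, rfl⟩ := Finset.mem_image.1 hy
  exact h1 x hx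

lemma row {B b : ℝ} {T0 : Finset O} (hB0 : 0 ≤ B)
    (hd : ∀ (S : Finset O) (a : O → ℂ), QT b S → ∑ h ∈ S, ‖cp T0 a h‖ ^ 2 ≤ B * nq T0 a)
    (T : Finset (O × O)) (h1 : ∀ x ∈ T, OP x.1 ∧ Squarefree x.1 ∧ N x.1 ≤ b) (G : O × O → ℝ)
    (a : O → ℂ) (c : O → O → ℂ) (hc : ∀ y n, ‖c y n‖ ≤ ‖a n‖)
    (hG : ∀ x ∈ T, G x = ‖cp T0 (c x.2) x.1‖ ^ 2) (y : O) :
    ∑ x ∈ T.filter (·.2 = y), G x ≤ B * nq T0 a := by
  have inj : Set.InjOn Prod.fst (T.filter (·.2 = y) : Set (O × O)) := fun x hx x' hx' e =>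
    Prod.ext e ((Finset.mem_filter.1 hx).2.trans (Finset.mem_filter.1 hx').2.symm)
  calc _ = ∑ h ∈ (T.filter (·.2 = y)).image Prod.fst, ‖cp T0 (c y) h‖ ^ 2 := by
        rw [Finset.sum_image inj]
        exact Finset.sum_congr rfl fun x hx => by
          rw [hG x (Finset.mem_filter.1 hx).1, (Finset.mem_filter.1 hx).2]
    _ ≤ B * nq T0 (c y) := hd _ _ fun h hh => by
        obtain ⟨x, hx, rfl⟩ := Finset.mem_image.1 hh
        exact h1 x (Finset.mem_filter.1 hx).1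
    _ ≤ _ := mul_le_mul_of_nonneg_left
        (Finset.sum_le_sum fun n _ => pow_le_pow_left₀ (norm_nonneg _) (hc y n) 2) hB0

lemma stepA (hB : Bas) (hD : DUAStmt) (hK : BLKStmt) {ξ : ℝ} (hξ : 1 ≤ ξ) (hξ' : ξ ≤ 2)
    (h : EE ξ) : AA ξ := by
  intro ε hε
  obtain ⟨C, hC0, hc⟩ := h (ε / 2) (by positivity)
  obtain ⟨C', hC0', hk⟩ := hK (ε / 2) (by positivity)
  refine ⟨C' * (128 * C * 2 ^ (ε / 2)), by positivity, fun H k R hH hk1 S T0 a hS hT _ => ?_⟩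
  have n0 : 0 ≤ nq T0 a := Finset.sum_nonneg fun _ _ => by positivity
  have c3 : ∀ n ∈ T0, IsCoprime n 3 := fun n hn => hB.b2.cop n (hT n hn).1.1
  have key : ∀ (i j : ℕ) (L : ℝ) (T : Finset (O × O)) (G : O × O → ℝ) (c : O → O → ℂ), j ≤ i →
      ((2 : ℝ) ^ j) ^ 2 * 2 ^ i ≤ L → L ≤ H →
      (∀ x ∈ T, (OP x.1 ∧ Squarefree x.1 ∧ N x.1 ≤ 2 * 2 ^ i) ∧ x.2 ≠ 0 ∧ N x.2 ≤ 2 * 2 ^ j) →
      (∀ y n, ‖c y n‖ ≤ ‖a n‖) → (∀ x ∈ T, G x = ‖cp T0 (c x.2) x.1‖ ^ 2) →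
      ∑ x ∈ T, G x ≤ 128 * C * 2 ^ (ε / 2) * (H * k) ^ (ε / 2) *
        (H ^ (1 / 3 : ℝ) * k + H ^ ξ + (H * k) ^ (2 / 3 : ℝ)) * nq T0 a * (L / H) ^ (1 / 3 : ℝ) := by
    intro i j L T G c hji hL hLH h1 h2 h3
    have i1 : (1 : ℝ) ≤ 2 ^ i := one_le_pow₀ one_le_two
    have j1 : (1 : ℝ) ≤ 2 ^ j := one_le_pow₀ one_le_two
    have iH : (2 : ℝ) ^ i ≤ H := by nlinarith [one_le_pow₀ (n := 2) j1]
    refine (fib hB (B := C * (k * (2 * 2 ^ i)) ^ (ε / 2) *
      (k + (2 * 2 ^ i) ^ ξ + (k * (2 * 2 ^ i)) ^ (2 / 3 : ℝ)) * nq T0 a) (by positivity)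
      (by positivity) T G (fun x hx => (h1 x hx).2) (row (by positivity) (fun S' a' hS' =>
        hD k _ S'.card _ (by positivity) (hc k _ _ hk1 (by linarith)) S' T0 a' hS' le_rfl
          fun n hn => ⟨(hT n hn).1.1, (hT n hn).2.2⟩) T (fun x hx => (h1 x hx).1) G a c h2 h3)).trans ?_
    have e := arith j1 (pow_le_pow_right₀ one_le_two hji) hL hLH (zero_le_one.trans hk1) hξ hξ'
    have e2 : (k * (2 * 2 ^ i)) ^ (ε / 2) ≤ 2 ^ (ε / 2) * (H * k) ^ (ε / 2) := by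
      rw [← Real.mul_rpow zero_le_two (by positivity)]
      exact Real.rpow_le_rpow (by positivity) (by nlinarith) (by positivity)
    calc _ = 32 * C * (k * (2 * 2 ^ i)) ^ (ε / 2) * nq T0 a *
          (2 ^ j * (k + (2 * 2 ^ i) ^ ξ + (k * (2 * 2 ^ i)) ^ (2 / 3 : ℝ))) := by ring
      _ ≤ 32 * C * (2 ^ (ε / 2) * (H * k) ^ (ε / 2)) * nq T0 a *
          (4 * (H ^ (1 / 3 : ℝ) * k + H ^ ξ + (H * k) ^ (2 / 3 : ℝ)) * (L / H) ^ (1 / 3 : ℝ)) := by
          gcongr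
      _ = _ := by ring
  have le1 : ∀ (u : O) n, ‖a n * cub u n‖ ≤ ‖a n‖ := fun u n => by
    rw [norm_mul]; exact mul_le_of_le_one_right (norm_nonneg _) (hB.b6.norm_le _ _)
  refine (hk (fun h => ‖cp T0 a h‖ ^ 2) H (128 * C * 2 ^ (ε / 2) * (H * k) ^ (ε / 2) *
    (H ^ (1 / 3 : ℝ) * k + H ^ ξ + (H * k) ^ (2 / 3 : ℝ)) * nq T0 a) S hH (by positivity) (fun _ => by positivity) hS
    fun u _ h3 _ i j T hT' hL => ?_).trans ?_
  · rcases le_total j i with c | c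
    · refine key i j _ T _ (fun y n => a n * cub (u * y ^ 2 * h3 ^ 3) n) c (le_of_eq (by ring)) hL
        (fun x hx => ?_) (fun y n => le1 _ n) fun x _ => ?_
      · obtain ⟨a1, a2, a3, -, a5, -, a7⟩ := hT' x hx
        exact ⟨⟨a1, a3.of_mul_left, by rw [← pow_succ']; exact a5.le⟩, hB.b2.ne _ a2.1,
          by rw [← pow_succ']; exact a7.le⟩
      · congr 2
        refine Finset.sum_congr rfl fun n hn => ?_
        rw [mul_assoc (a n), ← hB.b6.mul_l _ _ _ (c3 n hn)]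
        congr 2
        ring
    · have sw := Finset.sum_image (s := T) (g := Prod.swap)
        (f := fun x => ‖cp T0 a (u * (x.2 * x.1 ^ 2) * h3 ^ 3)‖ ^ 2) Prod.swap_injective.injOn
      simp only [Prod.fst_swap, Prod.snd_swap] at sw
      beta_reduce
      rw [← sw]
      refine key j i _ _ _ (fun y n => conj (a n * cub (u * y * h3 ^ 3) n)) c ?_ hL
        (fun x hx => ?_) (fun y n => by rw [Complex.norm_conj]; exact le1 _ n) fun x _ => ?_
      · rw [← pow_mul, ← pow_add]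
        exact pow_le_pow_right₀ one_le_two (by omega)
      · obtain ⟨x, hx', rfl⟩ := Finset.mem_image.1 hx
        obtain ⟨a1, a2, a3, -, a5, -, a7⟩ := hT' x hx'
        exact ⟨⟨a2, a3.of_mul_right, by rw [← pow_succ']; exact a7.le⟩, hB.b2.ne _ a1.1,
          by rw [← pow_succ']; exact a5.le⟩
      · rw [← Complex.norm_conj (cp T0 _ x.1)]
        congr 2
        rw [cp, cp, map_sum]
        refine Finset.sum_congr rfl fun n hn => ?_
        rw [map_mul, conj_conj, hB.b6.conj_eq, ← hB.b6.pow_l _ _ _ (c3 n hn), mul_assoc (a n),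
          ← hB.b6.mul_l _ _ _ (c3 n hn)]
        congr 2
        ring
  · have e : H ^ (ε / 2) * (H * k) ^ (ε / 2) ≤ (H * k) ^ ε := by
      conv_rhs => rw [← add_halves ε, Real.rpow_add (by positivity)]
      gcongr
      nlinarith
    calc _ = C' * (128 * C * 2 ^ (ε / 2)) * (H ^ (ε / 2) * (H * k) ^ (ε / 2)) *
          (H ^ (1 / 3 : ℝ) * k + H ^ ξ + (H * k) ^ (2 / 3 : ℝ)) * nq T0 a := by ring
      _ ≤ _ := by unfold nq; gcongr

lemma rp {x y : ℝ} (hx : 0 < x) (hy : 0 < y) (a b : ℝ) :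
    x ^ a * y ^ b = Real.exp (a * Real.log x + b * Real.log y) := by
  rw [Real.rpow_def_of_pos hx, Real.rpow_def_of_pos hy, ← Real.exp_add]; congr 1; ring

lemma stepP (hB : Bas) (hP : POISStmt) {ξ : ℝ} (hξ : 4 / 3 ≤ ξ) (hξ' : ξ ≤ 2) (h : AA ξ) :
    EE (2 / 3 * ξ + 4 / 9) := by
  intro ε hε
  obtain ⟨δ, hδ, d1, dε⟩ : ∃ δ : ℝ, 0 < δ ∧ δ ≤ 1 ∧ 4 * δ ≤ ε :=
    ⟨min 1 (ε / 4), by positivity, min_le_left _ _, by linarith [min_le_right 1 (ε / 4)]⟩
  obtain ⟨C, hC0, hc⟩ := h δ hδ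
  obtain ⟨C', hC0', hp⟩ := hP δ hδ
  refine ⟨C' * (1 + 6 * C), by positivity, fun M K R hM hK => ?_⟩
  obtain ⟨M', hM'⟩ : ∃ M', M' = max M (K ^ (ξ - 1 / 3)) := ⟨_, rfl⟩
  have m1 : M ≤ M' := hM' ▸ le_max_left _ _
  have m2 : K ^ (ξ - 1 / 3) ≤ M' := hM' ▸ le_max_right _ _
  have K0 : 0 < K := by linarith
  have M0 : 0 < M' := by linarith
  have lK : 0 ≤ Real.log K := Real.log_nonneg hK
  have lM : (ξ - 1 / 3) * Real.log K ≤ Real.log M' := by
    rw [← Real.log_rpow K0]; exact Real.log_le_log (by positivity) m2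
  refine mono (hp (fun H k => C * ((1 + H) * k) ^ δ *
    (H ^ (1 / 3 : ℝ) * k + H ^ ξ + (H * k) ^ (2 / 3 : ℝ))) M' K R
    (C * (2 * K ^ (3 * δ)) * (3 * (M' * K) ^ (2 / 3 : ℝ))) (hM.trans m1) hK (by positivity)
    (fun H k a b _ => ?_) (fun t H k a b c => ?_) fun k a b => ?_) m1 ?_
  · by_cases c : H < 1 ∨ k < 1
    · exact small hB (by positivity) c
    · push Not at c
      exact mono (hc H k R c.1 c.2) le_rfl (by gcongr; linarith)
  · have t0 : 0 < t := by linarith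
    have f : ∀ s : ℝ, s ≤ 2 → (t * H) ^ s ≤ t ^ 2 * H ^ s := fun s hs => by
      rw [Real.mul_rpow t0.le b.le, ← Real.rpow_two]
      gcongr
    have g : ((1 + t * H) * k) ^ δ ≤ t * ((1 + H) * k) ^ δ := by
      calc _ ≤ (t * ((1 + H) * k)) ^ δ :=
            Real.rpow_le_rpow (by positivity) (by nlinarith) hδ.le
        _ ≤ _ := by
          rw [Real.mul_rpow t0.le (by positivity)]
          gcongr
          exact Real.rpow_le_self_of_one_le a d1
    have f1 := f (1 / 3) (by norm_num)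
    have f2 := f ξ hξ'
    have f3 := f (2 / 3) (by norm_num)
    simp only [Real.mul_rpow (show 0 ≤ t * H by positivity) c.le, Real.mul_rpow b.le c.le]
    calc _ ≤ C * (t * ((1 + H) * k) ^ δ) * (t ^ 2 * H ^ (1 / 3 : ℝ) * k + t ^ 2 * H ^ ξ +
          t ^ 2 * H ^ (2 / 3 : ℝ) * k ^ (2 / 3 : ℝ)) := by gcongr
      _ = _ := by ring
  · have lk : Real.log k ≤ Real.log K := Real.log_le_log a b
    have q : ∀ s r : ℝ, 1 - 2 * s ≤ r → (r + 2 * s - 5 / 3) * Real.log K ≤ (s - 1 / 3) * Real.log M' →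
        M' / k * ((k ^ 2 / M') ^ s * k ^ r) ≤ (M' * K) ^ (2 / 3 : ℝ) := fun s r h1 h2 => by
      rw [rp (by positivity) a, Real.mul_rpow M0.le K0.le, rp M0 K0,
        ← Real.exp_log (show 0 < M' / k by positivity), ← Real.exp_add,
        Real.log_div M0.ne' a.ne', Real.log_div (by positivity) M0.ne', Real.log_pow]
      refine Real.exp_le_exp.2 ?_
      push_cast
      nlinarith
    have q1 := q (1 / 3) 1 (by norm_num) (by norm_num)
    have q2 := q ξ 0 (by linarith) (by nlinarith [sq_nonneg (ξ - 4 / 3)])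
    have q3 := q (2 / 3) (2 / 3) (by norm_num) (by nlinarith)
    rw [Real.rpow_one] at q1
    rw [Real.rpow_zero, mul_one] at q2
    rw [← Real.mul_rpow (by positivity) a.le] at q3
    have g : ((1 + k ^ 2 / M') * k) ^ δ ≤ 2 * K ^ (3 * δ) := by
      have : k ^ 2 / M' ≤ K ^ 2 := (div_le_self (by positivity) (hM.trans m1)).trans (by gcongr)
      calc _ ≤ (2 * K ^ 3) ^ δ := by
            refine Real.rpow_le_rpow (by positivity) ?_ hδ.le
            calc _ ≤ (K ^ 2 + K ^ 2) * K := by gcongr; exact one_le_pow₀ hK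
              _ = _ := by ring
        _ ≤ _ := by
            rw [Real.mul_rpow zero_le_two (by positivity), ← Real.rpow_natCast, ← Real.rpow_mul K0.le]
            gcongr
            · exact Real.rpow_le_self_of_one_le one_le_two d1
            · norm_num
    calc _ = C * ((1 + k ^ 2 / M') * k) ^ δ * (M' / k * ((k ^ 2 / M') ^ (1 / 3 : ℝ) * k) +
          M' / k * (k ^ 2 / M') ^ ξ + M' / k * (k ^ 2 / M' * k) ^ (2 / 3 : ℝ)) := by ring
      _ ≤ _ := by gcongr; linarith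
  · obtain ⟨X, hX⟩ : ∃ X, X = M + K ^ (2 / 3 * ξ + 4 / 9) + (M * K) ^ (2 / 3 : ℝ) := ⟨_, rfl⟩
    have p1 : 0 ≤ K ^ (2 / 3 * ξ + 4 / 9) := by positivity
    have p2 : 0 ≤ (M * K) ^ (2 / 3 : ℝ) := by positivity
    have x1 : M' ≤ X := by
      rw [hM', hX]
      refine max_le (by linarith) ?_
      have := Real.rpow_le_rpow_of_exponent_le hK (show ξ - 1 / 3 ≤ 2 / 3 * ξ + 4 / 9 by linarith)
      linarith
    have x2 : (M' * K) ^ (2 / 3 : ℝ) ≤ X := by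
      rw [hM', hX]
      rcases le_total M (K ^ (ξ - 1 / 3)) with c | c
      · rw [max_eq_right c, ← Real.rpow_add_one K0.ne', ← Real.rpow_mul K0.le,
          show (ξ - 1 / 3 + 1) * (2 / 3) = 2 / 3 * ξ + 4 / 9 by ring]
        linarith
      · rw [max_eq_left c]; linarith
    have k3 : 1 ≤ K ^ (3 * δ) := Real.one_le_rpow hK (by positivity)
    have e : K ^ δ * K ^ (3 * δ) ≤ (M * K) ^ ε := by
      rw [← Real.rpow_add K0]
      refine (Real.rpow_le_rpow_of_exponent_le hK (show _ ≤ ε by linarith)).trans ?_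
      gcongr
      nlinarith
    rw [← hX]
    have X0 : 0 ≤ X := M0.le.trans x1
    calc _ ≤ C' * K ^ δ * (K ^ (3 * δ) * X + C * (2 * K ^ (3 * δ)) * (3 * X)) := by
          gcongr
          nlinarith
      _ = C' * (1 + 6 * C) * (K ^ δ * K ^ (3 * δ)) * X := by ring
      _ ≤ _ := by gcongr

lemma lim (hB : Bas) (hP : POISStmt) (hD : DUAStmt) (hK : BLKStmt) : EE (4 / 3) := by
  have it : ∀ n : ℕ, EE (4 / 3 + (2 / 3) ^ (n + 1)) := fun n => by
    induction n with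
    | zero => convert base hB hP using 1; norm_num
    | succ n ih =>
      have a : (0 : ℝ) < (2 / 3) ^ (n + 1) := by positivity
      have b : (2 / 3 : ℝ) ^ (n + 1) ≤ 2 / 3 := by
        rw [pow_succ]; exact mul_le_of_le_one_left (by norm_num) (pow_le_one₀ (by norm_num) (by norm_num))
      convert stepP hB hP (by linarith) (by linarith) (stepA hB hD hK (by linarith) (by linarith) ih)
        using 1
      ring
  intro ε hε
  obtain ⟨n, hn⟩ := exists_pow_lt_of_lt_one (half_pos hε) (show (2 / 3 : ℝ) < 1 by norm_num)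
  obtain ⟨C, hC0, hc⟩ := it n (ε / 2) (half_pos hε)
  refine ⟨C, hC0, fun M K R hM hK => mono (hc M K R hM hK) le_rfl ?_⟩
  have mk : 1 ≤ M * K := one_le_mul_of_one_le_of_one_le hM hK
  have y : 1 ≤ (M * K) ^ (ε / 2) := Real.one_le_rpow mk (by positivity)
  have z : K ^ (4 / 3 + (2 / 3 : ℝ) ^ (n + 1)) ≤ (M * K) ^ (ε / 2) * K ^ (4 / 3 : ℝ) := by
    rw [Real.rpow_add (by linarith), mul_comm]
    gcongr
    refine (Real.rpow_le_rpow_of_exponent_le hK (show _ ≤ ε / 2 from ?_)).trans (by gcongr; nlinarith)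
    rw [pow_succ]
    nlinarith [pow_pos (show (0 : ℝ) < 2 / 3 by norm_num) n]
  conv_rhs => rw [← add_halves ε, Real.rpow_add (by linarith), ← mul_assoc, mul_assoc (C * _)]
  have : 0 ≤ (M * K) ^ (2 / 3 : ℝ) := by positivity
  gcongr
  nlinarith

end HBAM

open HBAM in
theorem hbaS (hB : Bas) (hP : POISStmt) (hD : DUAStmt) (hK : BLKStmt) : HBAStmt := by
  intro ε hε
  have hE := lim hB hP hD hK
  obtain ⟨C, hC0, hc⟩ := hE ε hε
  obtain ⟨C', hC0', ha⟩ := stepA hB hD hK (by norm_num) (by norm_num) hE ε hε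
  refine ⟨2 * C + 2 * C' + 16, by positivity, fun M K R hM hK1 => ?_⟩
  have p0 : 1 ≤ (M * K) ^ ε := Real.one_le_rpow (one_le_mul_of_one_le_of_one_le hM hK1) hε.le
  have p2 : 0 ≤ (M * K) ^ (2 / 3 : ℝ) := by positivity
  have p3 : K ≤ M ^ (1 / 3 : ℝ) * K :=
    le_mul_of_one_le_left (by linarith) (Real.one_le_rpow hM (by norm_num))
  have sq : ∀ x : ℝ, 0 ≤ x → x * x ≤ M * K → x ^ (4 / 3 : ℝ) ≤ (M * K) ^ (2 / 3 : ℝ) := fun x hx h => by
    refine le_trans (le_of_eq ?_) (Real.rpow_le_rpow (by positivity) h (by norm_num))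
    rw [← sq, ← Real.rpow_natCast, ← Real.rpow_mul hx]; norm_num
  obtain ⟨X, hX⟩ : ∃ X, X = M + (M * K) ^ (2 / 3 : ℝ) + M ^ (1 / 3 : ℝ) * K := ⟨_, rfl⟩
  rw [← hX]
  have X0 : 0 ≤ X := by linarith
  rcases le_total K M with c | c
  · refine mono (hc M K R hM hK1) le_rfl ?_
    have := sq K (by linarith) (by nlinarith)
    calc _ ≤ C * (M * K) ^ ε * (2 * X) := by gcongr; linarith
      _ = 2 * C * (M * K) ^ ε * X := by ring
      _ ≤ _ := by gcongr; linarith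
  · intro S T a hS hT hR
    have n0 : 0 ≤ ∑ n ∈ T, ‖a n‖ ^ 2 := Finset.sum_nonneg fun _ _ => by positivity
    have e1 := ha M K R hM hK1 (S.erase 0) T a
      (fun m hm => ⟨Finset.ne_of_mem_erase hm, (hS m (Finset.mem_of_mem_erase hm)).2⟩) hT hR
    have e2 := cs hB T a 0
    have e3 := hB.b3.card_le K T (by linarith) fun n hn => ⟨hB.b2.ne n (hT n hn).1.1, (hT n hn).2.2⟩
    have e4 := sq M (by linarith) (by nlinarith)
    calc _ ≤ ∑ m ∈ insert 0 (S.erase 0), ‖∑ n ∈ T, a n * cub m n‖ ^ 2 :=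
          Finset.sum_le_sum_of_subset_of_nonneg (Finset.subset_insert_iff.2 le_rfl)
            fun _ _ _ => by positivity
      _ ≤ 16 * ((M * K) ^ ε * X) * ∑ n ∈ T, ‖a n‖ ^ 2 +
          C' * (M * K) ^ ε * (2 * X) * ∑ n ∈ T, ‖a n‖ ^ 2 := by
          rw [Finset.sum_insert (Finset.notMem_erase _ _)]
          refine add_le_add (e2.trans ?_) (e1.trans ?_)
          · gcongr
            nlinarith
          · gcongr
            linarith
      _ = (2 * C' + 16) * (M * K) ^ ε * X * ∑ n ∈ T, ‖a n‖ ^ 2 := by ring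
      _ ≤ _ := by gcongr; linarith

end Vale.Agent.P006
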