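import Vale.Agent.P006.LS

/-! P006 branch B: frequencies of large conductor, arbitrary coefficients. -/

noncomputable section
open Complex
open scoped Classical ComplexConjugate

namespace Vale.Agent.P006
open Vale.Agent.P026

namespace NC1M

theorem nq_nonneg (T : Finset O) (a : O → ℂ) : 0 ≤ nq T a :=
  Finset.sum_nonneg fun _ _ => sq_nonneg _

theorem twist (hB : Bas) {K : ℝ} {T : Finset O} (hT : PT K T) (a : O → ℂ) (u x : O) :
    cp T a (u * x) = cp T (fun n => a n * cub u n) x := by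
  unfold cp
  refine Finset.sum_congr rfl fun n hn => ?_
  rw [hB.b6.mul_l u x n (hB.b2.cop n (hT n hn).1), mul_assoc]

theorem nq_twist (hB : Bas) (T : Finset O) (a : O → ℂ) (u : O) :
    nq T (fun n => a n * cub u n) ≤ nq T a := by
  unfold nq
  refine Finset.sum_le_sum fun n _ => ?_
  rw [norm_mul]
  have h1 := hB.b6.norm_le u n
  have h2 := norm_nonneg (a n)
  have h3 := norm_nonneg (cub u n)
  have h4 : ‖a n‖ * ‖cub u n‖ ≤ ‖a n‖ := mul_le_of_le_one_right h2 h1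
  exact pow_le_pow_left₀ (mul_nonneg h2 h3) h4 2

theorem cube_root {x : ℝ} (hx : 0 ≤ x) : (x ^ (1 / 3 : ℝ)) ^ 3 = x := by
  rw [← Real.rpow_natCast, ← Real.rpow_mul hx]; norm_num

theorem two_third {x : ℝ} (hx : 0 ≤ x) : x ^ (2 / 3 : ℝ) = (x ^ (1 / 3 : ℝ)) ^ 2 := by
  rw [← Real.rpow_natCast, ← Real.rpow_mul hx]; norm_num

theorem key {L H K Q : ℝ} (hL : 0 < L) (hLH : L ≤ H) (hK : 1 ≤ K) (hQ : 1 ≤ Q) (hQL : Q ≤ 8 * L) :
    K + (L * K) ^ (2 / 3 : ℝ) + K ^ (1 / 3 : ℝ) * L ≤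
      2 * (H ^ (1 / 3 : ℝ) * K * Q ^ (-1 / 3 : ℝ) + (H * K) ^ (2 / 3 : ℝ) + K ^ (1 / 3 : ℝ) * H) *
        (L / H) ^ (1 / 3 : ℝ) := by
  have hH : 0 < H := hL.trans_le hLH
  have hK0 : 0 < K := by linarith
  have hQ0 : 0 < Q := by linarith
  have e1 : Q ^ (-1 / 3 : ℝ) = (Q ^ (1 / 3 : ℝ))⁻¹ := by
    rw [← Real.rpow_neg hQ0.le]; norm_num
  rw [e1, two_third (mul_pos hL hK0).le, two_third (mul_pos hH hK0).le, Real.mul_rpow hL.le hK0.le,
    Real.mul_rpow hH.le hK0.le, Real.div_rpow hL.le hH.le]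
  have hl := cube_root hL.le
  have hh := cube_root hH.le
  have hq := cube_root hQ0.le
  have hl0 : 0 < L ^ (1 / 3 : ℝ) := Real.rpow_pos_of_pos hL _
  have hh0 : 0 < H ^ (1 / 3 : ℝ) := Real.rpow_pos_of_pos hH _
  have hq0 : 0 < Q ^ (1 / 3 : ℝ) := Real.rpow_pos_of_pos hQ0 _
  have hk0 : 0 < K ^ (1 / 3 : ℝ) := Real.rpow_pos_of_pos hK0 _
  have hlh : L ^ (1 / 3 : ℝ) ≤ H ^ (1 / 3 : ℝ) := Real.rpow_le_rpow hL.le hLH (by norm_num)
  generalize L ^ (1 / 3 : ℝ) = l at *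
  generalize H ^ (1 / 3 : ℝ) = h at *
  generalize Q ^ (1 / 3 : ℝ) = q at *
  generalize K ^ (1 / 3 : ℝ) = k at *
  have hql : q ≤ 2 * l := by
    by_contra hc
    push Not at hc
    have : (2 * l) ^ 3 < q ^ 3 := pow_lt_pow_left₀ hc (by positivity) (by norm_num)
    nlinarith
  subst hl hh
  have a1 : K ≤ 2 * (h * K * q⁻¹) * (l / h) := by
    have : 2 * (h * K * q⁻¹) * (l / h) = K * (2 * l / q) := by field_simp
    rw [this]
    exact le_mul_of_one_le_right hK0.le ((one_le_div hq0).2 hql)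
  have a2 : (l * k) ^ 2 ≤ 2 * (h * k) ^ 2 * (l / h) := by
    have : 2 * (h * k) ^ 2 * (l / h) = 2 * (h * l) * k ^ 2 := by field_simp
    rw [this, mul_pow]
    exact mul_le_mul_of_nonneg_right (by nlinarith) (sq_nonneg _)
  have a3 : k * l ^ 3 ≤ 2 * (k * h ^ 3) * (l / h) := by
    have : 2 * (k * h ^ 3) * (l / h) = k * (2 * h ^ 2 * l) := by field_simp
    rw [this]
    refine mul_le_mul_of_nonneg_left ?_ hk0.le
    have : l ^ 2 ≤ h ^ 2 := pow_le_pow_left₀ hl0.le hlh 2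
    nlinarith [mul_pos (pow_pos hh0 2) hl0]
  nlinarith

end NC1M

open NC1M

theorem nc1S (hB : Bas) (hD : DECStmt3) (hK : BLKStmt) (h1 : BK1Stmt) : NC1Stmt := by
  intro ε hε
  obtain ⟨C1, hC1, hb⟩ := hK (ε / 2) (half_pos hε)
  obtain ⟨C2, hC2, hk⟩ := h1 (ε / 2) (half_pos hε)
  refine ⟨C1 * C2 * 2, by positivity, fun S T a H K Q hH hK1 hQ hS hT => ?_⟩
  have hH0 : 0 < H := by linarith
  have hK0 : 0 < K := by linarith
  have hQ0 : 0 < Q := by linarith
  have hn := nq_nonneg T a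
  set E : ℝ := H ^ (1 / 3 : ℝ) * K * Q ^ (-1 / 3 : ℝ) + (H * K) ^ (2 / 3 : ℝ) + K ^ (1 / 3 : ℝ) * H
    with hE
  have hE0 : 0 ≤ E := by positivity
  have h := hb (fun m => if Q ≤ cd m then ‖cp T a m‖ ^ 2 else 0) H
    (C2 * (H * K) ^ (ε / 2) * (2 * E) * nq T a) S hH (by positivity)
    (fun m => by split_ifs <;> positivity) (fun m hm => ⟨(hS m hm).1, (hS m hm).2.1⟩)
    (by
      intro u hu h3 hh3 i j T' hT' hL
      have hL0 : (0 : ℝ) < 2 ^ (i + 2 * j) := by positivity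
      by_cases hQL : Q ≤ 8 * 2 ^ (i + 2 * j)
      · calc ∑ x ∈ T', (if Q ≤ cd (u * (x.1 * x.2 ^ 2) * h3 ^ 3) then
              ‖cp T a (u * (x.1 * x.2 ^ 2) * h3 ^ 3)‖ ^ 2 else 0)
            ≤ ∑ x ∈ T', ‖cp T (fun n => a n * cub (u * h3 ^ 3) n) (x.1 * x.2 ^ 2)‖ ^ 2 := by
              refine Finset.sum_le_sum fun x _ => ?_
              rw [← twist hB hT, show u * h3 ^ 3 * (x.1 * x.2 ^ 2) = u * (x.1 * x.2 ^ 2) * h3 ^ 3 by
                ring]
              split_ifs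
              · exact le_rfl
              · positivity
          _ ≤ C2 * (2 ^ (i + 2 * j) * K) ^ (ε / 2) *
              (K + (2 ^ (i + 2 * j) * K) ^ (2 / 3 : ℝ) + K ^ (1 / 3 : ℝ) * 2 ^ (i + 2 * j)) *
              nq T (fun n => a n * cub (u * h3 ^ 3) n) := hk i j T' T _ K _ hT' le_rfl hK1 hT
          _ ≤ C2 * (H * K) ^ (ε / 2) * (2 * E * (2 ^ (i + 2 * j) / H) ^ (1 / 3 : ℝ)) * nq T a := by
              have k1 := key hL0 hL hK1 hQ hQL
              have k2 : ((2 : ℝ) ^ (i + 2 * j) * K) ^ (ε / 2) ≤ (H * K) ^ (ε / 2) :=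
                Real.rpow_le_rpow (by positivity) (mul_le_mul_of_nonneg_right hL hK0.le)
                  (half_pos hε).le
              exact mul_le_mul (mul_le_mul (mul_le_mul_of_nonneg_left k2 hC2) k1 (by positivity)
                (by positivity)) (nq_twist hB T a _) (nq_nonneg _ _) (by positivity)
          _ = _ := by ring
      · rw [Finset.sum_eq_zero]
        · positivity
        · intro x hx
          obtain ⟨o1, o2, sq, -, b1, -, b2⟩ := hT' x hx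
          rw [if_neg]
          rw [hD.2.1 u hu x.1 x.2 h3 o1 o2 sq hh3]
          push Not at hQL ⊢
          have n1 : 0 ≤ N x.1 := Nat.cast_nonneg _
          have n2 : 0 ≤ N x.2 := Nat.cast_nonneg _
          have p1 : N x.1 * N x.2 ≤ 2 ^ (i + 1) * 2 ^ (j + 1) :=
            mul_le_mul b1.le b2.le n2 (by positivity)
          have p2 : (2 : ℝ) ^ (i + 1) * 2 ^ (j + 1) ≤ 8 * 2 ^ (i + 2 * j) := by
            have : (2 : ℝ) ^ j ≤ 2 ^ (2 * j) := pow_le_pow_right₀ (by norm_num) (by omega)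
            have h2 : (0 : ℝ) < 2 ^ i := by positivity
            have h3 : (0 : ℝ) < 2 ^ j := by positivity
            rw [pow_succ, pow_succ, pow_add]
            nlinarith
          linarith)
  have e : ∑ m ∈ S, ‖cp T a m‖ ^ 2 = ∑ m ∈ S, if Q ≤ cd m then ‖cp T a m‖ ^ 2 else 0 :=
    Finset.sum_congr rfl fun m hm => (if_pos (hS m hm).2.2).symm
  rw [e]
  refine h.trans ?_
  have k2 : H ^ (ε / 2) ≤ (H * K) ^ (ε / 2) :=
    Real.rpow_le_rpow hH0.le (le_mul_of_one_le_right hH0.le hK1) (half_pos hε).le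
  have k3 : (H * K) ^ ε = (H * K) ^ (ε / 2) * (H * K) ^ (ε / 2) := by
    rw [← Real.rpow_add (by positivity)]; congr 1; ring
  rw [k3]
  calc C1 * H ^ (ε / 2) * (C2 * (H * K) ^ (ε / 2) * (2 * E) * nq T a)
      ≤ C1 * (H * K) ^ (ε / 2) * (C2 * (H * K) ^ (ε / 2) * (2 * E) * nq T a) :=
        mul_le_mul_of_nonneg_right (mul_le_mul_of_nonneg_left k2 hC1) (by positivity)
    _ = _ := by ring

end Vale.Agent.P006
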