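import Vale.Agent.P006.LS

/-! P006 branch B: frequencies of large conductor, product of two polynomials. -/

noncomputable section
open Complex
open scoped Classical ComplexConjugate

namespace Vale.Agent.P006
open Vale.Agent.P026

namespace NC2M

theorem tw (hB : Bas) {K : ℝ} {T : Finset O} (hT : QT K T) (a : O → ℂ) (u m w : O) :
    cp T a (u * m * w) = cp T (fun n => a n * cub (u * w) n) m :=
  Finset.sum_congr rfl fun n hn => by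
    rw [mul_right_comm u, hB.b6.mul_l _ m n (hB.b2.cop _ (hT n hn).1.1), mul_assoc]

theorem nqle (hB : Bas) {K A : ℝ} {T : Finset O} {a : O → ℂ} (hK : 0 ≤ K) (hT : PT K T)
    (ha : ∀ n, ‖a n‖ ≤ A) : nq T a ≤ 16 * K * A ^ 2 := by
  refine (Finset.sum_le_card_nsmul _ _ (A ^ 2) fun n _ =>
    pow_le_pow_left₀ (norm_nonneg _) (ha n) 2).trans ?_
  rw [nsmul_eq_mul]
  exact mul_le_mul_of_nonneg_right
    (hB.b3.card_le K T hK fun n hn => ⟨hB.b2.ne _ (hT n hn).1, (hT n hn).2⟩) (by positivity)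

theorem cb {x : ℝ} (hx : 0 ≤ x) : (x ^ (1 / 3 : ℝ)) ^ 3 = x := by
  rw [← Real.rpow_natCast, ← Real.rpow_mul hx]
  norm_num

theorem cb' {x : ℝ} (hx : 0 ≤ x) : (x ^ 3) ^ (1 / 3 : ℝ) = x := by
  rw [← Real.rpow_natCast, ← Real.rpow_mul hx]
  norm_num

theorem cb2 {x : ℝ} (hx : 0 ≤ x) : (x ^ 3) ^ (2 / 3 : ℝ) = x ^ 2 := by
  rw [← Real.rpow_natCast, ← Real.rpow_mul hx, ← Real.rpow_natCast]
  norm_num

theorem num {y l q s : ℝ} (y0 : 0 < y) (l0 : 0 < l) (q0 : 0 < q) (s0 : 0 < s) (s1 : s ≤ 1)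
    (h1 : q ≤ 2 * l) (h2 : l ≤ y ^ 2 * s) :
    (y ^ 6 + (l * y ^ 2) ^ 2 + y ^ 2 * l ^ 3) * y ^ 6 ≤ 2 * (y ^ 14 * (q⁻¹ + s)) * (l / y ^ 2) := by
  have a1 : 1 ≤ 2 * l * q⁻¹ := by rw [← div_eq_mul_inv, le_div_iff₀ q0]; linarith
  have a2 : l ^ 2 ≤ y ^ 4 * s := by
    calc l ^ 2 ≤ (y ^ 2 * s) ^ 2 := by gcongr
      _ = y ^ 4 * s * s := by ring
      _ ≤ y ^ 4 * s * 1 := by gcongr
      _ = _ := mul_one _
  have b1 : y ^ 12 * 1 ≤ y ^ 12 * (2 * l * q⁻¹) := by gcongr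
  have b2 : l * y ^ 10 * l ≤ l * y ^ 10 * (y ^ 2 * s) := by gcongr
  have b3 : l * y ^ 8 * l ^ 2 ≤ l * y ^ 8 * (y ^ 4 * s) := by gcongr
  rw [show 2 * (y ^ 14 * (q⁻¹ + s)) * (l / y ^ 2) = 2 * y ^ 12 * (q⁻¹ + s) * l by field_simp]
  nlinarith

end NC2M

open NC2M in
theorem nc2S (hB : Bas) (hD : DECStmt3) (hK : BLKStmt) (hV : CONVStmt) (h1 : BK1Stmt)
    (h2 : BK2Stmt) : NC2Stmt := by
  intro ε hε
  obtain ⟨CK, CK0, hK⟩ := hK (ε / 10) (by positivity)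
  obtain ⟨CV, CV1, hV⟩ := hV (ε / 10) (by positivity)
  obtain ⟨C1, C10, h1⟩ := h1 (ε / 10) (by positivity)
  obtain ⟨C2, C20, h2⟩ := h2
  refine ⟨CK * (32 * C1 * CV ^ 2 + C2), by positivity,
    fun S T1 T2 a1 a2 Y Q Y1 Q1 hS t1 t2 b1 b2 => ?_⟩
  have Y0 : 0 < Y := by linarith
  have Q0 : 0 < Q := by linarith
  have he : ∀ k : ℕ, (Y ^ k) ^ (ε / 10) = (Y ^ (ε / 10)) ^ k := fun k => by
    rw [← Real.rpow_natCast, ← Real.rpow_natCast, ← Real.rpow_mul Y0.le, ← Real.rpow_mul Y0.le,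
      mul_comm]
  have e1 : 1 ≤ Y ^ (ε / 10) := Real.one_le_rpow Y1 (by positivity)
  have ey : Y ^ (14 / 3 + ε) = (Y ^ (1 / 3 : ℝ)) ^ 14 * (Y ^ (ε / 10)) ^ 10 := by
    rw [← Real.rpow_natCast, ← Real.rpow_natCast, ← Real.rpow_mul Y0.le, ← Real.rpow_mul Y0.le,
      ← Real.rpow_add Y0]
    congr 1
    push_cast
    ring
  have eB : Y ^ (4651 / 1000 : ℝ) ≤ (Y ^ (1 / 3 : ℝ)) ^ 14 * (Y ^ (-1 / 130 : ℝ)) ^ 2 := by
    rw [← Real.rpow_natCast, ← Real.rpow_natCast, ← Real.rpow_mul Y0.le, ← Real.rpow_mul Y0.le,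
      ← Real.rpow_add Y0]
    exact Real.rpow_le_rpow_of_exponent_le Y1 (by norm_num)
  have eq : Q ^ (-1 / 3 : ℝ) = (Q ^ (1 / 3 : ℝ))⁻¹ := by
    rw [← Real.rpow_neg Q0.le, neg_div]
  have s0 : 0 < Y ^ (-1 / 130 : ℝ) := by positivity
  have s1 : Y ^ (-1 / 130 : ℝ) ≤ 1 := Real.rpow_le_one_of_one_le_of_nonpos Y1 (by norm_num)
  have y0 : 0 < Y ^ (1 / 3 : ℝ) := by positivity
  have q0 : 0 < Q ^ (1 / 3 : ℝ) := by positivity
  have hy := cb Y0.le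
  have hq := cb Q0.le
  rw [ey, eq]
  generalize Y ^ (ε / 10) = e at *
  generalize Y ^ (-1 / 130 : ℝ) = s at *
  generalize Y ^ (1 / 3 : ℝ) = y at *
  generalize Q ^ (1 / 3 : ℝ) = q at *
  have key := hK (fun m => if Q ≤ cd m then ‖cp T1 a1 m * cp T2 a2 m‖ ^ 2 else 0) (Y ^ 2)
    ((32 * C1 * CV ^ 2 + C2) * e ^ 8 * (y ^ 14 * (q⁻¹ + s))) S (one_le_pow₀ Y1) (by positivity)
    (fun h => by split_ifs <;> positivity) (fun h hh => ⟨(hS h hh).1, (hS h hh).2.1⟩)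
    (fun u hu h3 h30 i j T hT hL => ?_)
  · rw [Finset.sum_congr rfl fun m hm => if_pos (hS m hm).2.2, he] at key
    exact key.trans_eq (by ring)
  have L0 : (0 : ℝ) < 2 ^ (i + 2 * j) := by positivity
  have l0 : 0 < ((2 : ℝ) ^ (i + 2 * j)) ^ (1 / 3 : ℝ) := by positivity
  have hl := cb L0.le
  generalize ((2 : ℝ) ^ (i + 2 * j)) ^ (1 / 3 : ℝ) = l at l0 hl
  rw [show (2 : ℝ) ^ (i + 2 * j) / Y ^ 2 = (l / y ^ 2) ^ 3 by rw [← hl, ← hy]; ring,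
    cb' (by positivity)]
  by_cases hQ : q ≤ 2 * l
  swap
  · refine (Finset.sum_eq_zero fun x hx => if_neg fun h => hQ ?_).trans_le (by positivity)
    obtain ⟨o1, o2, sq, -, n1, -, n2⟩ := hT x hx
    rw [hD.2.1 u hu _ _ _ o1 o2 sq h30] at h
    have n0 : 0 ≤ N x.2 := Nat.cast_nonneg _
    have a : N x.1 * N x.2 ≤ 2 ^ (i + 1) * 2 ^ (j + 1) := by gcongr
    have b : (2 : ℝ) ^ (i + 1) * 2 ^ (j + 1) ≤ 2 ^ 3 * 2 ^ (i + 2 * j) := by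
      rw [← pow_add, ← pow_add]
      exact pow_le_pow_right₀ one_le_two (by omega)
    refine le_of_pow_le_pow_left₀ three_ne_zero (by positivity) ?_
    rw [hq, mul_pow, hl]
    linarith
  have c1 : ∀ n, ‖a1 n * cub (u * h3 ^ 3) n‖ ≤ 1 := fun n => by
    rw [norm_mul]; exact mul_le_one₀ (b1 n) (norm_nonneg _) (hB.b6.norm_le _ _)
  have c2 : ∀ n, ‖a2 n * cub (u * h3 ^ 3) n‖ ≤ 1 := fun n => by
    rw [norm_mul]; exact mul_le_one₀ (b2 n) (norm_nonneg _) (hB.b6.norm_le _ _)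
  refine (Finset.sum_le_sum (g := fun x : O × O =>
    ‖cp T1 (fun n => a1 n * cub (u * h3 ^ 3) n) (x.1 * x.2 ^ 2) *
      cp T2 (fun n => a2 n * cub (u * h3 ^ 3) n) (x.1 * x.2 ^ 2)‖ ^ 2) fun x _ => ?_).trans ?_
  · rw [tw hB t1, tw hB t2]
    split_ifs
    · exact le_rfl
    · positivity
  have e8 : 1 ≤ e ^ 8 := one_le_pow₀ e1
  rcases le_total l (y ^ 2 * s) with hc | hc
  · obtain ⟨T', c, pT, bc, hp⟩ := hV T1 T2 _ _ Y Y 1 1 Y1 Y1 zero_le_one zero_le_one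
      (fun n hn => ⟨(t1 n hn).1.1, (t1 n hn).2.2⟩) (fun n hn => ⟨(t2 n hn).1.1, (t2 n hn).2.2⟩) c1 c2
    simp only [← hp]
    have k := h1 i j T T' c (Y * Y) _ hT le_rfl (one_le_mul_of_one_le_of_one_le Y1 Y1) pT
    have k1 := nqle hB (by positivity) pT bc
    have k2 : (2 ^ (i + 2 * j) * (Y * Y)) ^ (ε / 10) ≤ e ^ 4 := by
      rw [← he]
      exact Real.rpow_le_rpow (by positivity) (by nlinarith [mul_pos Y0 Y0]) (by positivity)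
    rw [← sq, he] at k1
    rw [show 2 ^ (i + 2 * j) * (Y * Y) = (l * y ^ 2) ^ 3 by rw [← hl, ← hy]; ring] at k k2
    rw [cb2 (by positivity), show Y * Y = (y ^ 2) ^ 3 by rw [← hy]; ring, cb' (by positivity),
      ← hl] at k
    have k3 := num y0 l0 q0 s0 s1 hQ hc
    calc _ ≤ _ := k
      _ ≤ C1 * e ^ 4 * ((y ^ 2) ^ 3 + (l * y ^ 2) ^ 2 + y ^ 2 * l ^ 3) *
          (16 * Y ^ 2 * (CV * e ^ 2 * 1 * 1) ^ 2) := by
          have : 0 ≤ nq T' c := Finset.sum_nonneg fun _ _ => by positivity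
          gcongr
      _ = 16 * C1 * CV ^ 2 * e ^ 8 * ((y ^ 6 + (l * y ^ 2) ^ 2 + y ^ 2 * l ^ 3) * y ^ 6) := by
          rw [← hy]; ring
      _ ≤ 16 * C1 * CV ^ 2 * e ^ 8 * (2 * (y ^ 14 * (q⁻¹ + s)) * (l / y ^ 2)) := by gcongr
      _ = 32 * C1 * CV ^ 2 * e ^ 8 * (y ^ 14 * (q⁻¹ + s)) * (l / y ^ 2) := by ring
      _ ≤ _ := by gcongr; linarith
  · have hc' : s ≤ l / y ^ 2 := by rw [le_div_iff₀ (by positivity)]; linarith
    calc _ ≤ _ := h2 i j T T1 T2 _ _ Y hT Y1 hL t1 t2 c1 c2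
      _ ≤ C2 * (y ^ 14 * s ^ 2) := by gcongr
      _ = C2 * 1 * (y ^ 14 * s) * s := by ring
      _ ≤ _ := by
          have : 0 ≤ 32 * C1 * CV ^ 2 := by positivity
          have : 0 < q⁻¹ := by positivity
          gcongr <;> linarith

end Vale.Agent.P006
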