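import Vale.Agent.P006.LS

noncomputable section
open Complex
open scoped Classical ComplexConjugate

namespace Vale.Agent.P006
open Vale.Agent.P026

namespace RLSM

theorem nq_nonneg (T : Finset O) (a : O → ℂ) : 0 ≤ nq T a :=
  Finset.sum_nonneg fun _ _ => sq_nonneg _

theorem twist (hB : Bas) (T : Finset O) (a : O → ℂ) (hT : ∀ n ∈ T, Prim n) (v x : O) :
    cp T a (v * x) = cp T (fun n => a n * cub v n) x := by
  refine Finset.sum_congr rfl fun n hn => ?_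
  rw [hB.b6.mul_l v x n (hB.b2.cop n (hT n hn)), mul_assoc]

theorem nq_twist (hB : Bas) (T : Finset O) (a : O → ℂ) (v : O) :
    nq T (fun n => a n * cub v n) ≤ nq T a := by
  refine Finset.sum_le_sum fun n _ => ?_
  have h := hB.b6.norm_le v n
  have h2 : ‖a n * cub v n‖ ≤ ‖a n‖ := by
    rw [norm_mul]
    exact mul_le_of_le_one_right (norm_nonneg _) h
  exact pow_le_pow_left₀ (norm_nonneg _) h2 2

theorem triv (hB : Bas) (T : Finset O) (a : O → ℂ) (m : O) :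
    ‖cp T a m‖ ^ 2 ≤ T.card * nq T a := by
  have h1 : ‖cp T a m‖ ≤ ∑ n ∈ T, ‖a n‖ := by
    refine (norm_sum_le _ _).trans (Finset.sum_le_sum fun n _ => ?_)
    rw [norm_mul]
    exact mul_le_of_le_one_right (norm_nonneg _) (hB.b6.norm_le m n)
  exact (pow_le_pow_left₀ (norm_nonneg _) h1 2).trans (sq_sum_le_card_mul_sum_sq (s := T)
    (f := fun n => ‖a n‖))

theorem card_blk (hB : Bas) {i j : ℕ} {S : Finset (O × O)} (hS : Blk i j S) :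
    (S.card : ℝ) ≤ 1024 * (2 ^ i * 2 ^ j) := by
  have h1 : ((S.image Prod.fst).card : ℝ) ≤ 16 * 2 ^ (i + 1) := by
    refine hB.b3.card_le _ _ (by positivity) fun a ha => ?_
    obtain ⟨x, hx, rfl⟩ := Finset.mem_image.1 ha
    exact ⟨hB.b2.ne _ (hS x hx).1.1, (hS x hx).2.2.2.2.1.le⟩
  have h2 : ((S.image Prod.snd).card : ℝ) ≤ 16 * 2 ^ (j + 1) := by
    refine hB.b3.card_le _ _ (by positivity) fun a ha => ?_
    obtain ⟨x, hx, rfl⟩ := Finset.mem_image.1 ha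
    exact ⟨hB.b2.ne _ (hS x hx).2.1.1, (hS x hx).2.2.2.2.2.2.le⟩
  have h3 : S.card ≤ (S.image Prod.fst).card * (S.image Prod.snd).card := by
    rw [← Finset.card_product]
    exact Finset.card_le_card fun x hx => Finset.mem_product.2
      ⟨Finset.mem_image_of_mem _ hx, Finset.mem_image_of_mem _ hx⟩
  calc (S.card : ℝ) ≤ (S.image Prod.fst).card * (S.image Prod.snd).card := by exact_mod_cast h3
    _ ≤ (16 * 2 ^ (i + 1)) * (16 * 2 ^ (j + 1)) := by gcongr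
    _ = _ := by ring

theorem c3 {x : ℝ} (hx : 0 ≤ x) : (x ^ (1 / 3 : ℝ)) ^ 3 = x := by
  rw [← Real.rpow_natCast, ← Real.rpow_mul hx]
  norm_num

theorem c23 {x : ℝ} (hx : 0 ≤ x) : x ^ (2 / 3 : ℝ) = (x ^ (1 / 3 : ℝ)) ^ 2 := by
  rw [← Real.rpow_natCast, ← Real.rpow_mul hx]
  norm_num

theorem LBB_mono {P : O → Prop} {H K R B B' : ℝ} (h : LBB P H K R B) (hb : B ≤ B') :
    LBB P H K R B' := fun S T a h1 h2 h3 =>
  (h S T a h1 h2 h3).trans (mul_le_mul_of_nonneg_right hb (Finset.sum_nonneg fun _ _ => sq_nonneg _))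

theorem blk_bound (hB : Bas) {C : ℝ} (hC : 0 ≤ C)
    (hL : ∀ (S : Finset (O × O)) (T : Finset O) (a : O → ℂ) (M Q : ℝ), 1 ≤ M → 1 ≤ Q →
      (∀ x ∈ S, Prim x.1 ∧ Prim x.2 ∧ Squarefree (x.1 * x.2) ∧ N (x.1 * x.2) ≤ Q) → PT M T →
      ∑ x ∈ S, ‖cp T a (x.1 * x.2 ^ 2)‖ ^ 2 ≤ C * (M + Q ^ 2) * nq T a)
    (H k R : ℝ) (hH : 1 ≤ H) (hk : 1 ≤ k) (hR : 0 ≤ R) (T : Finset O) (a : O → ℂ) (hT : PT k T)
    (hc : (T.card : ℝ) ≤ R) (i j : ℕ) (S : Finset (O × O)) (hS : Blk i j S)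
    (hij : (2 : ℝ) ^ (i + 2 * j) ≤ H) :
    ∑ x ∈ S, ‖cp T a (x.1 * x.2 ^ 2)‖ ^ 2 ≤
      16 * (1 + C) * (H ^ (1 / 3 : ℝ) * R ^ (1 / 3 : ℝ) * k ^ (2 / 3 : ℝ) + H ^ 2) * nq T a *
        ((2 : ℝ) ^ (i + 2 * j) / H) ^ (1 / 3 : ℝ) := by
  have hn := nq_nonneg T a
  have hi : (1 : ℝ) ≤ 2 ^ i := one_le_pow₀ (by norm_num)
  have hj : (1 : ℝ) ≤ 2 ^ j := one_le_pow₀ (by norm_num)
  have hP : (1 : ℝ) ≤ 2 ^ i * 2 ^ j := one_le_mul_of_one_le_of_one_le hi hj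
  have hPL : (2 : ℝ) ^ i * 2 ^ j ≤ 2 ^ (i + 2 * j) := by
    rw [← pow_add]
    exact pow_le_pow_right₀ (by norm_num) (by omega)
  have b1 : ∑ x ∈ S, ‖cp T a (x.1 * x.2 ^ 2)‖ ^ 2 ≤ 1024 * (2 ^ i * 2 ^ j) * R * nq T a := by
    calc ∑ x ∈ S, ‖cp T a (x.1 * x.2 ^ 2)‖ ^ 2 ≤ ∑ _x ∈ S, R * nq T a :=
          Finset.sum_le_sum fun x _ => (triv hB T a _).trans (mul_le_mul_of_nonneg_right hc hn)
      _ = S.card * (R * nq T a) := by rw [Finset.sum_const, nsmul_eq_mul]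
      _ ≤ 1024 * (2 ^ i * 2 ^ j) * (R * nq T a) :=
          mul_le_mul_of_nonneg_right (card_blk hB hS) (mul_nonneg hR hn)
      _ = _ := by ring
  have b2 := hL S T a k (4 * (2 ^ i * 2 ^ j)) hk (by linarith) (fun x hx => by
    obtain ⟨h1, h2, h3, -, h5, -, h7⟩ := hS x hx
    refine ⟨h1.1, h2.1, h3, ?_⟩
    rw [hB.b1.N_mul]
    have n1 : 0 ≤ N x.1 := Nat.cast_nonneg _
    have n2 : 0 ≤ N x.2 := Nat.cast_nonneg _
    calc N x.1 * N x.2 ≤ 2 ^ (i + 1) * 2 ^ (j + 1) := mul_le_mul h5.le h7.le n2 (by positivity)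
      _ = _ := by ring) hT
  generalize (2 : ℝ) ^ i * 2 ^ j = P at *
  generalize (2 : ℝ) ^ (i + 2 * j) = La at *
  generalize ∑ x ∈ S, ‖cp T a (x.1 * x.2 ^ 2)‖ ^ 2 = Z at *
  generalize nq T a = q at *
  have hLa : 0 ≤ La := by linarith
  rw [Real.div_rpow hLa (by linarith), c23 (by linarith : 0 ≤ k)]
  have e1 := c3 hLa
  have e2 := c3 (by linarith : 0 ≤ H)
  have e3 := c3 hR
  have e4 := c3 (by linarith : 0 ≤ k)
  have p1 : 0 ≤ La ^ (1 / 3 : ℝ) := Real.rpow_nonneg hLa _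
  have p2 : 0 < H ^ (1 / 3 : ℝ) := Real.rpow_pos_of_pos (by linarith) _
  have p3 : 0 ≤ R ^ (1 / 3 : ℝ) := Real.rpow_nonneg hR _
  have p4 : 0 ≤ k ^ (1 / 3 : ℝ) := Real.rpow_nonneg (by linarith) _
  have hlh : La ^ (1 / 3 : ℝ) ≤ H ^ (1 / 3 : ℝ) := Real.rpow_le_rpow hLa hij (by norm_num)
  generalize La ^ (1 / 3 : ℝ) = l at *
  generalize H ^ (1 / 3 : ℝ) = h at *
  generalize R ^ (1 / 3 : ℝ) = r at *
  generalize k ^ (1 / 3 : ℝ) = κ at *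
  subst e1 e2 e3 e4
  have eq : 16 * (1 + C) * (h * r * κ ^ 2 + (h ^ 3) ^ 2) * q * (l / h) =
      (16 * (1 + C) * (l * r * κ ^ 2) + 16 * (1 + C) * (l * h ^ 5)) * q := by
    field_simp
  rw [eq]
  have m1 : min (1024 * P * r ^ 3) (C * κ ^ 3) ≤ 16 * (1 + C) * (l * r * κ ^ 2) := by
    have z0 : 0 ≤ min (1024 * P * r ^ 3) (C * κ ^ 3) := le_min (by positivity) (by positivity)
    have z1 := min_le_left (1024 * P * r ^ 3) (C * κ ^ 3)
    have z2 := min_le_right (1024 * P * r ^ 3) (C * κ ^ 3)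
    generalize min (1024 * P * r ^ 3) (C * κ ^ 3) = z at *
    refine le_of_pow_le_pow_left₀ (n := 3) (by norm_num) (by positivity) ?_
    have z3 : C ^ 2 ≤ (1 + C) ^ 3 := by nlinarith [mul_nonneg hC hC, mul_nonneg hC (mul_nonneg hC hC)]
    calc z ^ 3 = z * z ^ 2 := by ring
      _ ≤ (1024 * P * r ^ 3) * (C * κ ^ 3) ^ 2 := by gcongr
      _ = 1024 * P * C ^ 2 * (r ^ 3 * κ ^ 6) := by ring
      _ ≤ 4096 * l ^ 3 * (1 + C) ^ 3 * (r ^ 3 * κ ^ 6) := by gcongr; norm_num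
      _ = _ := by ring
  have m2 : C * (4 * P) ^ 2 ≤ 16 * (1 + C) * (l * h ^ 5) := by
    calc C * (4 * P) ^ 2 = 16 * C * P ^ 2 := by ring
      _ ≤ 16 * (1 + C) * (l ^ 3) ^ 2 := by gcongr; linarith
      _ = 16 * (1 + C) * (l * l ^ 5) := by ring
      _ ≤ _ := by gcongr
  have m3 : 0 ≤ C * (4 * P) ^ 2 := by positivity
  rcases le_total (1024 * P * r ^ 3) (C * κ ^ 3) with hh | hh
  · rw [min_eq_left hh] at m1
    refine b1.trans (mul_le_mul_of_nonneg_right ?_ hn)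
    linarith
  · rw [min_eq_right hh] at m1
    refine b2.trans (mul_le_mul_of_nonneg_right ?_ hn)
    rw [mul_add]
    linarith

end RLSM

open RLSM in
theorem rlsS (hB : Bas) (hP : POISStmt) (hK : BLKStmt) (hL : CLSStmt) : RLSStmt := by
  intro ε hε
  obtain ⟨CP, hCP, hP⟩ := hP (ε / 3) (by linarith)
  have he0 : 0 < min (ε / 3) 1 := lt_min (by linarith) one_pos
  have he1 : min (ε / 3) 1 ≤ ε / 3 := min_le_left _ _
  have he2 : min (ε / 3) 1 ≤ 1 := min_le_right _ _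
  generalize min (ε / 3) 1 = e at he0 he1 he2
  obtain ⟨CK, hCK, hK⟩ := hK e he0
  obtain ⟨C, hC, hL⟩ := hL
  obtain ⟨C1, hC1, hC1e⟩ : ∃ C1 : ℝ, 0 ≤ C1 ∧ C1 = CK * (16 * (1 + C)) := ⟨_, by positivity, rfl⟩
  refine ⟨CP * (1 + 2 * C1), by positivity, fun M K R hM hK1 hR => ?_⟩
  have r0 : 0 ≤ R ^ (1 / 3 : ℝ) := Real.rpow_nonneg hR _
  have key := hP (fun H k => C1 * (1 + H) ^ e *
      (H ^ (1 / 3 : ℝ) * R ^ (1 / 3 : ℝ) * k ^ (2 / 3 : ℝ) + H ^ 2)) M K R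
    (C1 * (2 * K ^ 2) ^ e * (K ^ 3 / M + M ^ (2 / 3 : ℝ) * K ^ (1 / 3 : ℝ) * R ^ (1 / 3 : ℝ)))
    hM hK1 (by positivity) ?_ ?_ ?_
  · refine LBB_mono key ?_
    have a1 : (2 * K ^ 2) ^ e ≤ 2 * K ^ (2 * ε / 3) := by
      rw [Real.mul_rpow (by norm_num) (by positivity), ← Real.rpow_natCast, ← Real.rpow_mul (by linarith)]
      refine mul_le_mul ?_ (Real.rpow_le_rpow_of_exponent_le hK1 (by push_cast; linarith))
        (by positivity) (by norm_num)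
      calc (2 : ℝ) ^ e ≤ 2 ^ (1 : ℝ) := Real.rpow_le_rpow_of_exponent_le (by norm_num) he2
        _ = 2 := Real.rpow_one 2
    have a2 : K ^ ε = K ^ (ε / 3) * K ^ (2 * ε / 3) := by
      rw [← Real.rpow_add (by linarith)]
      congr 1
      ring
    have a3 : 1 ≤ K ^ (2 * ε / 3) := Real.one_le_rpow hK1 (by linarith)
    have a4 : 0 ≤ K ^ 3 / M + M ^ (2 / 3 : ℝ) * K ^ (1 / 3 : ℝ) * R ^ (1 / 3 : ℝ) := by positivity
    have a5 : 0 ≤ K ^ (ε / 3) := by positivity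
    rw [a2, add_assoc M]
    generalize K ^ 3 / M + M ^ (2 / 3 : ℝ) * K ^ (1 / 3 : ℝ) * R ^ (1 / 3 : ℝ) = W at *
    generalize K ^ (2 * ε / 3) = k2 at *
    generalize K ^ (ε / 3) = k1 at *
    have a6 : M + C1 * (2 * K ^ 2) ^ e * W ≤ (1 + 2 * C1) * k2 * (M + W) := by
      have : C1 * (2 * K ^ 2) ^ e * W ≤ C1 * (2 * k2) * W := by gcongr
      have h1 : M ≤ k2 * M := le_mul_of_one_le_left (by linarith) a3
      have h2 : 0 ≤ k2 * W := by positivity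
      have h3 : 0 ≤ C1 * k2 * M := by positivity
      nlinarith
    calc CP * k1 * (M + C1 * (2 * K ^ 2) ^ e * W) ≤ CP * k1 * ((1 + 2 * C1) * k2 * (M + W)) := by
          gcongr
      _ = _ := by ring
  · intro H k hH hk _ S T a hS hT hc
    have hn := nq_nonneg T a
    by_cases hH1 : H < 1
    · have : S = ∅ := Finset.eq_empty_of_forall_notMem fun m hm => by
        have := hB.b1.N_one_le m (hS m hm).1
        linarith [(hS m hm).2]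
      subst this
      rw [Finset.sum_empty]
      exact mul_nonneg (by positivity) hn
    by_cases hk1 : k < 1
    · have : T = ∅ := Finset.eq_empty_of_forall_notMem fun n hn => by
        have := hB.b1.N_one_le n (hB.b2.ne n (hT n hn).1.1)
        linarith [(hT n hn).2.2]
      subst this
      simp
    have hH1' : 1 ≤ H := not_lt.1 hH1
    have hk1' : 1 ≤ k := not_lt.1 hk1
    have hT' : PT k T := fun n hn => ⟨(hT n hn).1.1, (hT n hn).2.2⟩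
    have h := hK (fun m => ‖cp T a m‖ ^ 2) H
      (16 * (1 + C) * (H ^ (1 / 3 : ℝ) * R ^ (1 / 3 : ℝ) * k ^ (2 / 3 : ℝ) + H ^ 2) * nq T a) S hH1'
      (by positivity) (fun _ => sq_nonneg _) hS (fun u _ h3 _ i j S' hS' hij => by
        have e1 : ∀ x : O × O, cp T a (u * (x.1 * x.2 ^ 2) * h3 ^ 3) =
            cp T (fun n => a n * cub (u * h3 ^ 3) n) (x.1 * x.2 ^ 2) := fun x => by
          rw [← twist hB T a (fun n hn => (hT' n hn).1)]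
          congr 1
          ring
        simp only [e1]
        refine (blk_bound hB hC hL H k R hH1' hk1' hR T _ hT' hc i j S' hS' hij).trans ?_
        have := nq_twist hB T a (u * h3 ^ 3)
        gcongr)
    refine h.trans ?_
    have a1 : H ^ e ≤ (1 + H) ^ e := Real.rpow_le_rpow hH.le (by linarith) he0.le
    show _ ≤ C1 * (1 + H) ^ e *
      (H ^ (1 / 3 : ℝ) * R ^ (1 / 3 : ℝ) * k ^ (2 / 3 : ℝ) + H ^ 2) * nq T a
    rw [hC1e]
    calc CK * H ^ e * (16 * (1 + C) *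
          (H ^ (1 / 3 : ℝ) * R ^ (1 / 3 : ℝ) * k ^ (2 / 3 : ℝ) + H ^ 2) * nq T a)
        ≤ CK * (1 + H) ^ e * (16 * (1 + C) *
          (H ^ (1 / 3 : ℝ) * R ^ (1 / 3 : ℝ) * k ^ (2 / 3 : ℝ) + H ^ 2) * nq T a) := by gcongr
      _ = _ := by ring
  · intro t H k ht hH hk
    have a1 : (1 + t * H) ^ e ≤ t * (1 + H) ^ e := by
      calc (1 + t * H) ^ e ≤ (t * (1 + H)) ^ e :=
            Real.rpow_le_rpow (by positivity) (by nlinarith) he0.le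
        _ = t ^ e * (1 + H) ^ e := Real.mul_rpow (by linarith) (by linarith)
        _ ≤ t ^ (1 : ℝ) * (1 + H) ^ e := by
            gcongr
        _ = _ := by rw [Real.rpow_one]
    have a2 : (t * H) ^ (1 / 3 : ℝ) ≤ t ^ 2 * H ^ (1 / 3 : ℝ) := by
      rw [Real.mul_rpow (by linarith) hH.le, ← Real.rpow_natCast]
      gcongr
      norm_num
    show C1 * (1 + t * H) ^ e *
        ((t * H) ^ (1 / 3 : ℝ) * R ^ (1 / 3 : ℝ) * k ^ (2 / 3 : ℝ) + (t * H) ^ 2) ≤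
      t ^ 3 * (C1 * (1 + H) ^ e * (H ^ (1 / 3 : ℝ) * R ^ (1 / 3 : ℝ) * k ^ (2 / 3 : ℝ) + H ^ 2))
    calc C1 * (1 + t * H) ^ e *
          ((t * H) ^ (1 / 3 : ℝ) * R ^ (1 / 3 : ℝ) * k ^ (2 / 3 : ℝ) + (t * H) ^ 2)
        ≤ C1 * (t * (1 + H) ^ e) *
          (t ^ 2 * H ^ (1 / 3 : ℝ) * R ^ (1 / 3 : ℝ) * k ^ (2 / 3 : ℝ) + (t * H) ^ 2) := by gcongr
      _ = _ := by ring
  · intro k hk hkK
    have hM0 : 0 < M := by linarith
    have a1 : (1 + k ^ 2 / M) ^ e ≤ (2 * K ^ 2) ^ e := by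
      refine Real.rpow_le_rpow (by positivity) ?_ he0.le
      have h1 : k ^ 2 / M ≤ k ^ 2 := div_le_self (by positivity) hM
      have h2 : k ^ 2 ≤ K ^ 2 := by gcongr
      nlinarith
    have a2 : M / k * ((k ^ 2 / M) ^ (1 / 3 : ℝ) * R ^ (1 / 3 : ℝ) * k ^ (2 / 3 : ℝ) +
        (k ^ 2 / M) ^ 2) = k ^ 3 / M + M ^ (2 / 3 : ℝ) * k ^ (1 / 3 : ℝ) * R ^ (1 / 3 : ℝ) := by
      have e0 : (k ^ 2) ^ (1 / 3 : ℝ) = (k ^ (1 / 3 : ℝ)) ^ 2 := by
        rw [← Real.rpow_natCast, ← Real.rpow_natCast, ← Real.rpow_mul hk.le, ← Real.rpow_mul hk.le,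
          mul_comm]
      rw [Real.div_rpow (by positivity) hM0.le, e0, c23 hk.le, c23 hM0.le]
      have e1 := c3 hk.le
      have e2 := c3 hM0.le
      have p1 : 0 < k ^ (1 / 3 : ℝ) := Real.rpow_pos_of_pos hk _
      have p2 : 0 < M ^ (1 / 3 : ℝ) := Real.rpow_pos_of_pos hM0 _
      generalize k ^ (1 / 3 : ℝ) = κ at *
      generalize M ^ (1 / 3 : ℝ) = μ at *
      subst e1 e2
      field_simp
      ring
    show M / k * (C1 * (1 + k ^ 2 / M) ^ e * ((k ^ 2 / M) ^ (1 / 3 : ℝ) * R ^ (1 / 3 : ℝ) *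
      k ^ (2 / 3 : ℝ) + (k ^ 2 / M) ^ 2)) ≤ _
    calc M / k * (C1 * (1 + k ^ 2 / M) ^ e * ((k ^ 2 / M) ^ (1 / 3 : ℝ) * R ^ (1 / 3 : ℝ) *
          k ^ (2 / 3 : ℝ) + (k ^ 2 / M) ^ 2))
        = C1 * (1 + k ^ 2 / M) ^ e * (M / k * ((k ^ 2 / M) ^ (1 / 3 : ℝ) * R ^ (1 / 3 : ℝ) *
          k ^ (2 / 3 : ℝ) + (k ^ 2 / M) ^ 2)) := by ring
      _ = C1 * (1 + k ^ 2 / M) ^ e *
          (k ^ 3 / M + M ^ (2 / 3 : ℝ) * k ^ (1 / 3 : ℝ) * R ^ (1 / 3 : ℝ)) := by rw [a2]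
      _ ≤ _ := by gcongr

end Vale.Agent.P006
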