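import Vale.Agent.P006.B.BK1
import Vale.Agent.P006.B.BK2
import Vale.Agent.P006.B.BLK
import Vale.Agent.P006.B.CLS
import Vale.Agent.P006.B.CNT
import Vale.Agent.P006.B.CONV
import Vale.Agent.P006.B.DEC
import Vale.Agent.P006.B.DUA
import Vale.Agent.P006.B.HBA
import Vale.Agent.P006.B.NC1
import Vale.Agent.P006.B.NC2
import Vale.Agent.P006.B.RLS
import Vale.Agent.P026.M.W3
import Vale.Agent.P026.M.PS1b

namespace Vale.Agent.P006.BAll
open Vale.Agent.P026 W1 W2 W3

theorem cls : CLSStmt := clsS bas cr hd po1 gf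
theorem dua : DUAStmt := duaS bas cr
theorem dec : DECStmt3 := dec3S bas b8
theorem blk : BLKStmt := blkS bas dec
theorem conv : CONVStmt := convS bas
theorem pois : POISStmt := poisS bas cr hd b8 sxx schS (ps1bS bas sxx km gpo gamm) gamm
theorem hba : HBAStmt := hbaS bas pois dua blk
theorem rls : RLSStmt := rlsS bas pois blk cls
theorem bk1 : BK1Stmt := bk1S bas dua hba cls
theorem nc1 : NC1Stmt := nc1S bas dec blk bk1
theorem cnt : CNTStmt := cntS bas dua hba rls conv
theorem bk2 : BK2Stmt := bk2S bas dec hba cls conv cnt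
theorem nc2 : NC2Stmt := nc2S bas dec blk conv bk1 bk2

end Vale.Agent.P006.BAll
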