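import Vale.Agent.P006.LS

noncomputable section
open Complex
open scoped Classical ComplexConjugate

namespace Vale.Agent.P006
open Vale.Agent.P026

namespace BK1M

lemma cube23 (y : ℝ) (hy : 0 ≤ y) : (y ^ (2 / 3 : ℝ)) ^ 3 = y ^ 2 := by
  rw [← Real.rpow_natCast, ← Real.rpow_mul hy, ← Real.rpow_natCast]
  norm_num

lemma le23 (x y : ℝ) (hx : 0 ≤ x) (hy : 0 ≤ y) (h : x ^ 3 ≤ y ^ 2) : x ≤ y ^ (2 / 3 : ℝ) := by
  rw [← cube23 y hy] at h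
  exact (pow_le_pow_iff_left₀ hx (Real.rpow_nonneg hy _) (by norm_num)).1 h

lemma nq_nonneg (T : Finset O) (a : O → ℂ) : 0 ≤ nq T a :=
  Finset.sum_nonneg fun _ _ => by positivity

lemma cp_tw (hB : Bas) (K : ℝ) (T : Finset O) (hT : PT K T) (a : O → ℂ) (u x : O) :
    cp T a (x * u) = cp T (fun n => a n * cub u n) x := by
  unfold cp
  refine Finset.sum_congr rfl fun n hn => ?_
  rw [hB.b6.mul_l x u n (hB.b2.cop n (hT n hn).1)]
  ring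

lemma nq_tw (hB : Bas) (T : Finset O) (a : O → ℂ) (u : O) :
    nq T (fun n => a n * cub u n) ≤ nq T a := by
  unfold nq
  refine Finset.sum_le_sum fun n _ => ?_
  rw [norm_mul]
  have h1 := hB.b6.norm_le u n
  have h2 : ‖a n‖ * ‖cub u n‖ ≤ ‖a n‖ := mul_le_of_le_one_right (norm_nonneg _) h1
  exact pow_le_pow_left₀ (by positivity) h2 2

lemma fib (hB : Bas) (hD : DUAStmt) (i j : ℕ) (S : Finset (O × O)) (hS : Blk i j S)
    (T : Finset O) (a : O → ℂ) (K B : ℝ) (hT : PT K T) (hB0 : 0 ≤ B)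
    (hL : ∀ R, LBB (fun _ => True) K (2 * 2 ^ i) R B) :
    ∑ x ∈ S, ‖cp T a (x.1 * x.2 ^ 2)‖ ^ 2 ≤ 32 * 2 ^ j * (B * nq T a) := by
  have hn := nq_nonneg T a
  rw [← Finset.sum_fiberwise_of_maps_to (s := S) (t := S.image Prod.snd) (g := Prod.snd)
    (fun x hx => Finset.mem_image_of_mem _ hx)]
  have h1 : ∀ h2 ∈ S.image Prod.snd, ∑ x ∈ S with x.2 = h2, ‖cp T a (x.1 * x.2 ^ 2)‖ ^ 2 ≤
      B * nq T a := by
    intro h2 _
    have hinj : Set.InjOn Prod.fst ((S.filter fun x => x.2 = h2 : Finset (O × O)) : Set (O × O)) := by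
      intro x hx y hy hxy
      simp only [Finset.coe_filter, Set.mem_setOf_eq] at hx hy
      exact Prod.ext hxy (hx.2.trans hy.2.symm)
    have e1 : ∑ x ∈ S with x.2 = h2, ‖cp T a (x.1 * x.2 ^ 2)‖ ^ 2 =
        ∑ h ∈ (S.filter fun x => x.2 = h2).image Prod.fst,
          ‖cp T (fun n => a n * cub (h2 ^ 2) n) h‖ ^ 2 := by
      rw [Finset.sum_image hinj]
      refine Finset.sum_congr rfl fun x hx => ?_
      rw [(Finset.mem_filter.1 hx).2, cp_tw hB K T hT]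
    rw [e1]
    have hq : QT (2 * 2 ^ i) ((S.filter fun x => x.2 = h2).image Prod.fst) := by
      intro n hn
      obtain ⟨x, hx, rfl⟩ := Finset.mem_image.1 hn
      obtain ⟨p1, -, p3, -, p5, -⟩ := hS x (Finset.mem_filter.1 hx).1
      refine ⟨p1, Squarefree.of_mul_left p3, ?_⟩
      rw [pow_succ] at p5
      linarith
    refine (hD K (2 * 2 ^ i) _ B hB0 (hL _) _ T _ hq le_rfl hT).trans ?_
    exact mul_le_mul_of_nonneg_left (nq_tw hB T a _) hB0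
  refine (Finset.sum_le_card_nsmul _ _ _ h1).trans ?_
  rw [nsmul_eq_mul]
  refine mul_le_mul_of_nonneg_right ?_ (mul_nonneg hB0 hn)
  have h2 := hB.b3.card_le (2 * 2 ^ j) (S.image Prod.snd) (by positivity) (by
    intro n hn
    obtain ⟨x, hx, rfl⟩ := Finset.mem_image.1 hn
    obtain ⟨-, p2, -, -, -, -, p7⟩ := hS x hx
    refine ⟨hB.b2.ne _ p2.1, ?_⟩
    rw [pow_succ] at p7
    linarith)
  linarith

lemma numA (L1 L2 K L : ℝ) (h1 : 1 ≤ L1) (h2 : 1 ≤ L2) (hK : 1 ≤ K) (hL : L1 * L2 ^ 2 ≤ L)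
    (hc : L1 ^ 2 * L2 ≤ K) : (L1 * L2) ^ 2 ≤ (L * K) ^ (2 / 3 : ℝ) := by
  have h0 : 0 ≤ L1 * L2 ^ 2 := by positivity
  have hL0 : 0 ≤ L := h0.trans hL
  refine le23 _ _ (by positivity) (by positivity) ?_
  have h3 : (L1 * L2) ^ 3 ≤ L * K := by
    calc (L1 * L2) ^ 3 = (L1 * L2 ^ 2) * (L1 ^ 2 * L2) := by ring
      _ ≤ L * K := mul_le_mul hL hc (by positivity) hL0
  calc ((L1 * L2) ^ 2) ^ 3 = ((L1 * L2) ^ 3) ^ 2 := by ring
    _ ≤ (L * K) ^ 2 := pow_le_pow_left₀ (by positivity) h3 2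

lemma numB (L1 L2 K L : ℝ) (h1 : 1 ≤ L1) (h2 : 1 ≤ L2) (hK : 1 ≤ K) (hL : L1 * L2 ^ 2 ≤ L)
    (hc : K ≤ L1 ^ 2 * L2) :
    L2 * (K + (K * (2 * L1)) ^ (2 / 3 : ℝ) + K ^ (1 / 3 : ℝ) * (2 * L1)) ≤
      3 * (K + (L * K) ^ (2 / 3 : ℝ) + K ^ (1 / 3 : ℝ) * L) := by
  have h0 : 0 ≤ L1 * L2 ^ 2 := by positivity
  have hL0 : 0 ≤ L := h0.trans hL
  have hK0 : 0 ≤ K := by linarith
  have hsq : (L1 * L2 ^ 2) ^ 2 ≤ L ^ 2 := pow_le_pow_left₀ h0 hL 2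
  have a1 : L2 * K ≤ (L * K) ^ (2 / 3 : ℝ) := by
    refine le23 _ _ (by positivity) (by positivity) ?_
    calc (L2 * K) ^ 3 = (L2 ^ 3 * K) * K ^ 2 := by ring
      _ ≤ (L2 ^ 3 * (L1 ^ 2 * L2)) * K ^ 2 := by gcongr
      _ = (L1 * L2 ^ 2) ^ 2 * K ^ 2 := by ring
      _ ≤ L ^ 2 * K ^ 2 := by gcongr
      _ = (L * K) ^ 2 := by ring
  have a2 : L2 * (K * (2 * L1)) ^ (2 / 3 : ℝ) / 2 ≤ (L * K) ^ (2 / 3 : ℝ) := by
    refine le23 _ _ (by positivity) (by positivity) ?_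
    rw [div_pow, mul_pow, cube23 _ (by positivity)]
    have : L2 ^ 3 ≤ L2 ^ 4 := pow_le_pow_right₀ h2 (by norm_num)
    calc L2 ^ 3 * (K * (2 * L1)) ^ 2 / 2 ^ 3 = L2 ^ 3 * (K * L1) ^ 2 / 2 := by ring
      _ ≤ L2 ^ 3 * (K * L1) ^ 2 := half_le_self (by positivity)
      _ ≤ L2 ^ 4 * (K * L1) ^ 2 := by gcongr
      _ = (L1 * L2 ^ 2) ^ 2 * K ^ 2 := by ring
      _ ≤ L ^ 2 * K ^ 2 := by gcongr
      _ = (L * K) ^ 2 := by ring
  have a3 : L2 * L1 ≤ L := by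
    have : L2 ≤ L2 ^ 2 := by nlinarith
    nlinarith
  have a4 : 0 ≤ K ^ (1 / 3 : ℝ) := by positivity
  have a5 : K ^ (1 / 3 : ℝ) * (L2 * L1) ≤ K ^ (1 / 3 : ℝ) * L := by gcongr
  have a6 : 0 ≤ K ^ (1 / 3 : ℝ) * L := by positivity
  nlinarith

end BK1M

open BK1M in
theorem bk1S (hB : Bas) (hD : DUAStmt) (hH : HBAStmt) (hL : CLSStmt) : BK1Stmt := by
  intro ε hε
  obtain ⟨C0, hC0, h0⟩ := hL
  obtain ⟨C1, hC1, h1⟩ := hH ε hε
  refine ⟨16 * C0 + 96 * C1 * 2 ^ ε, by positivity, ?_⟩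
  intro i j S T a K L hS hiL hK hT
  have hn := nq_nonneg T a
  have g1 : (1 : ℝ) ≤ 2 ^ i := one_le_pow₀ (by norm_num)
  have g2 : (1 : ℝ) ≤ 2 ^ j := one_le_pow₀ (by norm_num)
  have hL' : (2 : ℝ) ^ i * (2 ^ j) ^ 2 ≤ L := by
    rw [← pow_mul, ← pow_add, mul_comm j 2]; exact hiL
  have hiL' : (2 : ℝ) ^ i ≤ L := by
    have : (1 : ℝ) ≤ (2 ^ j) ^ 2 := one_le_pow₀ g2
    nlinarith
  have hL1 : 1 ≤ L := g1.trans hiL'
  have hLK : 1 ≤ (L * K) ^ ε := Real.one_le_rpow (by nlinarith) hε.le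
  set W := K + (L * K) ^ (2 / 3 : ℝ) + K ^ (1 / 3 : ℝ) * L with hW
  have hW0 : 0 ≤ W := by positivity
  rcases le_total (((2 : ℝ) ^ i) ^ 2 * 2 ^ j) K with hc | hc
  · have h2 := h0 S T a K (4 * (2 ^ i * 2 ^ j)) hK (by nlinarith) (by
      intro x hx
      obtain ⟨p1, p2, p3, p4, p5, p6, p7⟩ := hS x hx
      refine ⟨p1.1, p2.1, p3, ?_⟩
      rw [hB.b1.N_mul]
      rw [pow_succ] at p5 p7
      calc N x.1 * N x.2 ≤ (2 ^ i * 2) * (2 ^ j * 2) :=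
            mul_le_mul p5.le p7.le (by linarith) (by positivity)
        _ = _ := by ring) hT
    refine h2.trans (mul_le_mul_of_nonneg_right ?_ hn)
    have h3 := numA _ _ K L g1 g2 hK hL' hc
    have h4 : K + (4 * ((2 : ℝ) ^ i * 2 ^ j)) ^ 2 ≤ 16 * W := by
      have : 0 ≤ K ^ (1 / 3 : ℝ) * L := by positivity
      rw [hW]; nlinarith
    calc C0 * (K + (4 * ((2 : ℝ) ^ i * 2 ^ j)) ^ 2) ≤ C0 * (16 * W) := by gcongr
      _ = 16 * C0 * 1 * W := by ring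
      _ ≤ (16 * C0 + 96 * C1 * 2 ^ ε) * (L * K) ^ ε * W := by
        gcongr
        have : 0 ≤ 96 * C1 * 2 ^ ε := by positivity
        linarith
  · have h2 := fib hB hD i j S hS T a K _ hT (by positivity)
      (fun R => h1 K (2 * 2 ^ i) R hK (by linarith))
    refine h2.trans ?_
    rw [← mul_assoc]
    refine mul_le_mul_of_nonneg_right ?_ hn
    have h3 := numB _ _ K L g1 g2 hK hL' hc
    have h4 : (K * (2 * 2 ^ i)) ^ ε ≤ 2 ^ ε * (L * K) ^ ε := by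
      rw [← Real.mul_rpow (by norm_num) (by positivity)]
      refine Real.rpow_le_rpow (by positivity) ?_ hε.le
      nlinarith
    calc 32 * 2 ^ j * (C1 * (K * (2 * 2 ^ i)) ^ ε *
          (K + (K * (2 * 2 ^ i)) ^ (2 / 3 : ℝ) + K ^ (1 / 3 : ℝ) * (2 * 2 ^ i)))
        = 32 * C1 * (K * (2 * 2 ^ i)) ^ ε * (2 ^ j *
          (K + (K * (2 * 2 ^ i)) ^ (2 / 3 : ℝ) + K ^ (1 / 3 : ℝ) * (2 * 2 ^ i))) := by ring
      _ ≤ 32 * C1 * (2 ^ ε * (L * K) ^ ε) * (3 * W) := by gcongr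
      _ = (96 * C1 * 2 ^ ε) * (L * K) ^ ε * W := by ring
      _ ≤ (16 * C0 + 96 * C1 * 2 ^ ε) * (L * K) ^ ε * W := by
        gcongr
        have : 0 ≤ 16 * C0 := by positivity
        linarith

end Vale.Agent.P006
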